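import Vale.Agent.P092.H213.Irr.MinV
import Vale.Agent.P092.UN.ClsE

/-!
P092, project IRR (helper213): the minimal condition on centralisers for the class `ClsV`.
-/

set_option linter.all false

namespace Vale.Agent.P092.H213.Irr

theorem cenF : CenF := fun N _ _ h => by
  obtain ⟨r, hr⟩ := UN.cls_qf h
  exact hr.fin

/-- **The minimal condition on centralisers for the class `ClsV`.** -/
theorem minC_clsV {G : Type} [Group G] [TopologicalSpace G] (h : UN.ClsV G) : H35.Mx.MinC G :=
  minC_clsV_of cenF h

end Vale.Agent.P092.H213.Irr
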