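import Vale.Agent.P092.UN.ClsL

/-!
P092 (helper213): irreducible lattices in products of simple groups over local fields of
characteristic zero. Only definitions.
-/

namespace Vale.Agent.P092.UN

/-- The subgroup of `Γ` generated by the elements with trivial image in `G j` and the elements with
trivial image in all the other factors `G l`, `l ≠ j`. -/
def Red {Γ I : Type} {G : I → Type} [Group Γ] [∀ j, Group (G j)] (q : Γ →* ∀ j, G j) (j : I) :
    Subgroup Γ :=
  Subgroup.closure {g | q g j = 1 ∨ ∀ l, l ≠ j → q g l = 1}

/-- `Γ` is an ICC lattice of a topological group `E` with a proper homomorphism `f` onto a subgroup of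
finite index of a finite product of groups `G j` which are `IsLieG`, and `Γ` is irreducible: for every
`j`, the subgroup `Red` of `Γ` has infinite index (so there are at least two factors). -/
def IrrLattice (Γ : Type) [Group Γ] : Prop :=
  ICC Γ ∧ ∃ (I : Type) (_ : Fintype I) (G : I → Type) (_ : ∀ j, Group (G j))
    (_ : ∀ j, TopologicalSpace (G j)) (E : Type) (_ : Group E) (_ : TopologicalSpace E)
    (f : E →* ∀ j, G j) (i : Γ →* E),
    IsTopologicalGroup E ∧ IsProperMap f ∧ f.range.FiniteIndex ∧ Function.Injective i ∧
    IsLattice i.range ∧ ∀ j, IsLieG (G j) ∧ ¬ (Red (f.comp i) j).FiniteIndex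

end Vale.Agent.P092.UN
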