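import Vale.Agent.P092.H213.Irr.Cls

/-!
P092 (helper213): lattices in products of classical groups over local fields and of simple groups over
local fields of characteristic zero. Only definitions.
-/

namespace Vale.Agent.P092.UN

/-- `Γ` is an ICC lattice of a topological group `E` with a proper homomorphism `f` onto a subgroup of
finite index of a finite product of groups `G j` which are `ClsV` or `IsLieG`, and the image of `Γ` in
no `G j` is discrete. -/
def ClassLatticeN (Γ : Type) [Group Γ] : Prop :=
  ICC Γ ∧ ∃ (I : Type) (_ : Fintype I) (G : I → Type) (_ : ∀ j, Group (G j))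
    (_ : ∀ j, TopologicalSpace (G j)) (E : Type) (_ : Group E) (_ : TopologicalSpace E)
    (f : E →* ∀ j, G j) (i : Γ →* E),
    IsTopologicalGroup E ∧ IsProperMap f ∧ f.range.FiniteIndex ∧ Function.Injective i ∧
    IsLattice i.range ∧
    ∀ j, (ClsV (G j) ∨ IsLieG (G j)) ∧ ¬ DiscreteTopology (Set.range fun g => f (i g) j)

/-- The same with `Γ` irreducible instead: for every `j`, the subgroup `Red` of `Γ` has infinite index
(so there are at least two factors). -/
def IrrLatticeN (Γ : Type) [Group Γ] : Prop :=
  ICC Γ ∧ ∃ (I : Type) (_ : Fintype I) (G : I → Type) (_ : ∀ j, Group (G j))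
    (_ : ∀ j, TopologicalSpace (G j)) (E : Type) (_ : Group E) (_ : TopologicalSpace E)
    (f : E →* ∀ j, G j) (i : Γ →* E),
    IsTopologicalGroup E ∧ IsProperMap f ∧ f.range.FiniteIndex ∧ Function.Injective i ∧
    IsLattice i.range ∧ ∀ j, (ClsV (G j) ∨ IsLieG (G j)) ∧ ¬ (Red (f.comp i) j).FiniteIndex

end Vale.Agent.P092.UN
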