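import Vale.Agent.P092.H144.Nd.Cl
import Vale.Agent.P092.H35.Rp.ClsQ
import Vale.Agent.P092.UN.ClsL

/-!
P092, project IRR (helper213): a subgroup with a closure of finite covolume has a finite subset with
trivial centraliser (Borel density for graphs).
-/

set_option linter.all false

open Filter Topology Module MeasureTheory

namespace Vale.Agent.P092.H213.Irr

open Vale.Agent.P092.H213.Rp
open Vale.Agent.P092.H213.Nd (Cov)
open Vale.Agent.P092.H720.Rp (RA Ng)
open Vale.Agent.P092.H144.Rp

/-- Subgroups which are dense in a subgroup of finite covolume contain a finite subset with trivial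
centraliser. -/
def Ctr (G : Type) [Group G] [TopologicalSpace G] : Prop :=
  ∀ M H : Subgroup G, (H : Set G) ⊆ closure (M : Set G) → Cov H → ∃ F : Finset G, (∀ f ∈ F, f ∈ M) ∧
    ∀ z : G, (∀ f ∈ F, z * f = f * z) → z = 1

variable {k : Type} [NontriviallyNormedField k] {L : Type} [LieRing L] [LieAlgebra k L] {n : ℕ}
  {G : Type} [Group G] [TopologicalSpace G] {b : Basis (Fin n) k L} {ρ : G →* Module.End k L}

/-- the diagonal action on `L × L` -/
def dbl (ρ : G →* Module.End k L) : G →* Module.End k (L × L) where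
  toFun g := (ρ g).prodMap (ρ g)
  map_one' := by
    rw [map_one]
    ext <;> rfl
  map_mul' g h := by
    rw [map_mul]
    ext <;> rfl

theorem dbl_apply (g : G) (v : L × L) : dbl ρ g v = (ρ g v.1, ρ g v.2) := rfl

variable [CompleteSpace k] [CharZero k]

theorem cont_dbl (he : IsEmbedding fun g => LinearMap.toMatrix b b (ρ g)) (φ : (L × L) →ₗ[k] k)
    (v : L × L) : Continuous fun g : G => φ (dbl ρ g v) := by
  have h1 : (fun g : G => φ (dbl ρ g v)) = fun g : G =>
      (φ.comp (LinearMap.inl k L L)) (ρ g v.1) + (φ.comp (LinearMap.inr k L L)) (ρ g v.2) := by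
    funext g
    rw [LinearMap.comp_apply, LinearMap.comp_apply, ← map_add, dbl_apply, LinearMap.inl_apply,
      LinearMap.inr_apply, Prod.mk_add_mk, add_zero, zero_add]
  rw [h1]
  exact (H144.Nd.cont_coeff' he _ _).add (H144.Nd.cont_coeff' he _ _)

/-- An element which commutes with the exponentials is trivial. -/
theorem eq_one_of_exp (h : RA b ρ) {z : G} (hz : ∀ u ∈ Ng ρ, z * u = u * z) : z = 1 := by
  haveI := fin_of b
  haveI : Infinite k := Infinite.of_injective (Nat.cast : ℕ → k) Nat.cast_injective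
  have h1 : ∀ x : L, Nil k x → ρ z x = x := by
    intro x hx
    rw [← sub_eq_zero]
    refine eq_zero_of_lie (k := k) h.simple fun v => ?_
    rw [sub_lie, sub_eq_zero]
    refine ad_eq_of_eu (k := k) (Set.infinite_univ.mono ?_)
    rintro s -
    obtain ⟨u, hu⟩ := h.full _ (H144.Rp.Nil.smul hx s)
    have h2 : z * u * z⁻¹ = u := by
      rw [hz u (Subgroup.subset_closure ⟨_, H144.Rp.Nil.smul hx s, hu⟩)]
      group
    have h3 : ρ (z * u * z⁻¹) = eu k (ρ z (s • x)) := by
      ext v
      rw [map_mul, map_mul, Module.End.mul_apply, Module.End.mul_apply, hu,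
        eu_conj' (h.lie z), H144.Rp.mul_inv]
    rw [h2, hu, map_smul] at h3
    show eu k (s • ρ z x) v = eu k (s • x) v
    rw [← h3]
  apply h.inj
  rw [map_one]
  ext v
  have hv : v ∈ Submodule.span k {x : L | Nil k x} := by
    rw [span_all h.simple h.iso]; trivial
  rw [Module.End.one_apply]
  induction hv using Submodule.span_induction with
  | mem x hx => exact h1 x hx
  | zero => exact map_zero _
  | add a c _ _ ha hc => rw [map_add, ha, hc]
  | smul c a _ ha => rw [map_smul, ha]

/-- **Borel density for graphs.** -/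
theorem eq_one_of_cov [SecondCountableTopology k] (h : RA b ρ) {H : Subgroup G} (hH : Cov H)
    {z : G} (hz : ∀ u ∈ H, z * u = u * z) : z = 1 := by
  haveI := fin_of b
  haveI := topGroup h.emb
  haveI := secCount h.emb
  have hE : RP b (ρ.comp (Ng ρ).subtype) := h.rp0.rp
  obtain ⟨x, hx0, hx⟩ := h.iso
  obtain ⟨s, y, htr⟩ := jm_rp hE x hx hx0
  obtain ⟨t₀, ht₀⟩ := NormedField.exists_one_lt_norm k
  have ht0 : t₀ ≠ 0 := by
    rintro rfl
    rw [norm_zero] at ht₀
    linarith
  obtain ⟨a, ha⟩ := aut_rp hE s x y htr (Units.mk0 t₀ ht0)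
  have hx2 : x ∈ egs k s 2 := by
    rw [mem_egs, htr.lie_h_e_nsmul]
    push_cast
    exact (two_smul ℕ x).trans (two_smul k x).symm
  have ha1 : a ≠ 1 := by
    rintro rfl
    have h6 := ha 2 x hx2
    rw [map_one, Module.End.one_apply, Units.val_mk0, zpow_ofNat] at h6
    have h7 : (t₀ ^ 2 - 1) • x = 0 := by rw [sub_smul, one_smul, ← h6, sub_self]
    rcases smul_eq_zero.1 h7 with h8 | h8
    · have h9 : ‖t₀ ^ 2‖ = 1 := by rw [sub_eq_zero.1 h8, norm_one]
      rw [norm_pow] at h9
      nlinarith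
    · exact hx0 h8
  -- the graph of `ρ z` is stable under the conjugates of `a`
  have key : ∀ g : G, z * (g⁻¹ * a * g) = (g⁻¹ * a * g) * z := by
    intro g
    have hD : ⨆ i : ℤ, (egs k s i).prod (egs k s i) = ⊤ := by
      have hs : ⨆ i : ℤ, egs k s i = ⊤ := spl_rp hE s x y htr
      rw [eq_top_iff]
      rintro ⟨v, w⟩ -
      have h1 : ∀ v : L, (v, (0 : L)) ∈ ⨆ i : ℤ, (egs k s i).prod (egs k s i) := by
        intro v
        have hv : v ∈ ⨆ i : ℤ, egs k s i := by rw [hs]; trivial
        have h2 : (⨆ i : ℤ, egs k s i).map (LinearMap.inl k L L) ≤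
            ⨆ i : ℤ, (egs k s i).prod (egs k s i) := by
          rw [Submodule.map_iSup]
          refine iSup_mono fun i => ?_
          rintro _ ⟨v, hv, rfl⟩
          exact ⟨hv, Submodule.zero_mem _⟩
        exact h2 ⟨v, hv, rfl⟩
      have h1' : ∀ v : L, ((0 : L), v) ∈ ⨆ i : ℤ, (egs k s i).prod (egs k s i) := by
        intro v
        have hv : v ∈ ⨆ i : ℤ, egs k s i := by rw [hs]; trivial
        have h2 : (⨆ i : ℤ, egs k s i).map (LinearMap.inr k L L) ≤
            ⨆ i : ℤ, (egs k s i).prod (egs k s i) := by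
          rw [Submodule.map_iSup]
          refine iSup_mono fun i => ?_
          rintro _ ⟨v, hv, rfl⟩
          exact ⟨Submodule.zero_mem _, hv⟩
        exact h2 ⟨v, hv, rfl⟩
      have h3 := Submodule.add_mem _ (h1 v) (h1' w)
      rwa [Prod.mk_add_mk, add_zero, zero_add] at h3
    have h1 := H213.Nd.bd (dbl ρ) (cont_dbl h.emb) hH (W := (ρ z).graph) (a := (a : G)) (t := t₀)
      (D := fun i => (egs k s i).prod (egs k s i)) ?_ ht₀ hD ?_ g
    · apply h.inj
      ext v
      have h2 := h1 (v, ρ z v) ((LinearMap.mem_graph_iff _ _).2 rfl)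
      rw [dbl_apply, LinearMap.mem_graph_iff] at h2
      rw [map_mul ρ z, map_mul ρ _ z, Module.End.mul_apply, Module.End.mul_apply]
      exact h2.symm
    · intro u hu w hw
      rw [LinearMap.mem_graph_iff] at hw
      rw [dbl_apply, LinearMap.mem_graph_iff]
      show ρ u w.2 = ρ z (ρ u w.1)
      rw [hw, ← Module.End.mul_apply, ← Module.End.mul_apply, ← map_mul, ← map_mul, hz u hu]
    · rintro i ⟨v, w⟩ ⟨hv, hw⟩
      rw [dbl_apply, Prod.smul_mk]
      exact Prod.ext (ha i v hv) (ha i w hw)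
  -- the centraliser of `z` contains the group generated by the exponentials
  refine eq_one_of_exp h fun u hu => ?_
  have hS : (Subgroup.centralizer {z}).subgroupOf (Ng ρ) = ⊤ := by
    have h3 : Subgroup.normalClosure {a} ≤ (Subgroup.centralizer {z}).subgroupOf (Ng ρ) := by
      rw [Subgroup.normalClosure, Subgroup.closure_le]
      intro u hu
      obtain ⟨a', ha', hc⟩ := Group.mem_conjugatesOfSet_iff.1 hu
      rw [Set.mem_singleton_iff] at ha'
      subst ha'
      obtain ⟨c, rfl⟩ := isConj_iff.1 hc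
      show (c * a' * c⁻¹ : Ng ρ) ∈ (Subgroup.centralizer {z}).subgroupOf (Ng ρ)
      rw [Subgroup.mem_subgroupOf, Subgroup.mem_centralizer_iff]
      intro z' hz'
      rw [Set.mem_singleton_iff] at hz'
      subst hz'
      have h4 := key ((c : G)⁻¹)
      rw [inv_inv] at h4
      exact h4
    rcases H144.Rp.simple hE (Subgroup.normalClosure {a}) Subgroup.normalClosure_normal with h4 | h4
    · exfalso
      have h5 : a ∈ Subgroup.normalClosure {a} := Subgroup.subset_normalClosure rfl
      rw [h4, Subgroup.mem_bot] at h5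
      exact ha1 h5
    · rw [eq_top_iff, ← h4]
      exact h3
  have h6 : (⟨u, hu⟩ : Ng ρ) ∈ (Subgroup.centralizer {z}).subgroupOf (Ng ρ) := by
    rw [hS]; trivial
  rw [Subgroup.mem_subgroupOf, Subgroup.mem_centralizer_iff] at h6
  exact h6 z rfl

/-- **Finite subsets with trivial centraliser.** -/
theorem ctr_ra [SecondCountableTopology k] (h : RA b ρ) : Ctr G := by
  classical
  haveI := fin_of b
  haveI := topGroup h.emb
  haveI := t2Space h.emb
  intro M H hMH hM
  -- the commutant of a finite set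
  let C : Finset G → Submodule k (Module.End k L) := fun F =>
    { carrier := {T | ∀ f ∈ F, T * ρ f = ρ f * T}
      add_mem' := fun {S T} hS hT f hf => by rw [add_mul, mul_add, hS f hf, hT f hf]
      zero_mem' := fun f _ => by rw [zero_mul, mul_zero]
      smul_mem' := fun c T hT f hf => by rw [smul_mul_assoc, hT f hf, mul_smul_comm] }
  obtain ⟨F, hFM, hmin⟩ : ∃ F : Finset G, (∀ f ∈ F, f ∈ M) ∧
      ∀ F' : Finset G, (∀ f ∈ F', f ∈ M) → finrank k (C F) ≤ finrank k (C F') := by
    have hex : ∃ d : ℕ, ∃ F : Finset G, (∀ f ∈ F, f ∈ M) ∧ finrank k (C F) = d :=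
      ⟨_, ∅, by simp, rfl⟩
    obtain ⟨F, hF, hFd⟩ := Nat.find_spec hex
    refine ⟨F, hF, fun F' hF' => ?_⟩
    rw [hFd]
    exact Nat.find_min' hex ⟨F', hF', rfl⟩
  refine ⟨F, hFM, fun z hz => ?_⟩
  have hzC : ρ z ∈ C F := fun f hf => by rw [← map_mul, ← map_mul, hz f hf]
  have hzM : ∀ m ∈ M, z * m = m * z := by
    intro m hm
    have h1 : C (insert m F) ≤ C F := fun T hT f hf => hT f (Finset.mem_insert_of_mem hf)
    have h2 : C (insert m F) = C F := by
      refine Submodule.eq_of_le_of_finrank_le h1 (hmin _ ?_)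
      intro f hf
      rcases Finset.mem_insert.1 hf with rfl | hf
      · exact hm
      · exact hFM f hf
    rw [← h2] at hzC
    have h3 := hzC m (Finset.mem_insert_self m F)
    apply h.inj
    rw [map_mul, map_mul]
    exact h3
  refine eq_one_of_cov h hM fun u hu => ?_
  have hcl : IsClosed {u : G | z * u = u * z} := isClosed_eq (by fun_prop) (by fun_prop)
  exact hcl.closure_subset_iff.2 (fun m hm => hzM m hm) (hMH hu)

omit [TopologicalSpace G] [Group G] [CompleteSpace k] [CharZero k] in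
theorem lieG_ra {G : Type} [Group G] [TopologicalSpace G] (h : UN.IsLieG G) :
    ∃ (k : Type) (_ : NontriviallyNormedField k) (_ : ProperSpace k) (_ : CharZero k) (L : Type)
      (_ : LieRing L) (_ : LieAlgebra k L) (n : ℕ) (b : Basis (Fin n) k L)
      (ρ : G →* Module.End k L), RA b ρ := by
  obtain ⟨k, i0, hp, hk, hc, hl⟩ := h
  obtain ⟨L, i1, i2, n, b, ρ, hr⟩ := H35.Rp.isLie_ra hl
  exact ⟨k, i0, hp, hc, L, i1, i2, n, b, ρ, ⟨hr.simple, hr.iso, hr.emb, hr.lie, hr.full⟩⟩

theorem ctr_lieG {G : Type} [Group G] [TopologicalSpace G] (h : UN.IsLieG G) : Ctr G := by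
  obtain ⟨k, i0, hp, hc, L, i1, i2, n, b, ρ, hr⟩ := lieG_ra h
  exact ctr_ra hr

theorem top_lieG {G : Type} [Group G] [TopologicalSpace G] (h : UN.IsLieG G) :
    IsTopologicalGroup G ∧ T2Space G ∧ SecondCountableTopology G ∧ LocallyCompactSpace G := by
  obtain ⟨k, i0, hp, hc, L, i1, i2, n, b, ρ, hr⟩ := lieG_ra h
  exact ⟨topGroup hr.emb, t2Space hr.emb, secCount hr.emb, locComp (H144.Nd.closed_ra hr)⟩

/-- Push forward of a finite invariant measure (helper465). -/
theorem cov_map {A B : Type} [Group A] [TopologicalSpace A] [Group B] [TopologicalSpace B]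
    [IsTopologicalGroup B] (p : A →* B) (hp : Continuous p) (hs : Function.Surjective p)
    (Γ : Subgroup A) (H : Subgroup B) (hΓ : Γ ≤ H.comap p) (hν : Cov Γ) : Cov H := by
  obtain ⟨ν, h0, hf, hinv⟩ := hν
  letI : MeasurableSpace (A ⧸ Γ) := borel _
  haveI : BorelSpace (A ⧸ Γ) := ⟨rfl⟩
  letI : MeasurableSpace (B ⧸ H) := borel _
  haveI : BorelSpace (B ⧸ H) := ⟨rfl⟩
  obtain ⟨π, hπ⟩ : ∃ π : A ⧸ Γ → B ⧸ H, ∀ x : A, π (x : A ⧸ Γ) = (p x : B ⧸ H) :=
    ⟨Quotient.map' p (by
      intro a b h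
      rw [QuotientGroup.leftRel_apply] at h ⊢
      rw [← map_inv, ← map_mul]
      exact hΓ h), fun x => rfl⟩
  have hc : Continuous π := by
    refine (QuotientGroup.isQuotientMap_mk Γ).continuous_iff.2 ?_
    exact (QuotientGroup.continuous_mk.comp hp).congr fun x => (hπ x).symm
  have hm : Measurable π := hc.measurable
  refine ⟨ν.map π, ?_, ?_, ?_⟩
  · rw [← Measure.measure_univ_ne_zero, Measure.map_apply hm MeasurableSet.univ, Set.preimage_univ]
    exact Measure.measure_univ_ne_zero.2 h0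
  · rw [Measure.map_apply hm MeasurableSet.univ, Set.preimage_univ]
    exact hf
  · intro g s hs'
    obtain ⟨g, rfl⟩ := hs g
    have hpre : MeasurableSet ((fun x : B ⧸ H => p g • x) ⁻¹' s) := by
      have h1 : Continuous fun x : B ⧸ H => p g • x := continuous_const_smul _
      exact h1.measurable hs'
    rw [Measure.map_apply hm hpre, Measure.map_apply hm hs', ← hinv g _ (hm hs')]
    congr 1
    ext x
    obtain ⟨x, rfl⟩ := QuotientGroup.mk_surjective x
    show p g • π (x : A ⧸ Γ) ∈ s ↔ π (g • (x : A ⧸ Γ)) ∈ s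
    have h1 : π (g • (x : A ⧸ Γ)) = p g • π (x : A ⧸ Γ) := by
      show π ((g * x : A) : A ⧸ Γ) = _
      rw [hπ, hπ, map_mul]
      rfl
    rw [h1]

/-- A subgroup of finite covolume of a product contains a finite subset with trivial centraliser. -/
theorem exists_centr {J : Type} [Fintype J] {G : J → Type} [∀ j, Group (G j)]
    [∀ j, TopologicalSpace (G j)] [∀ j, IsTopologicalGroup (G j)] (hG : ∀ j, Ctr (G j))
    (Λ : Subgroup (∀ j, G j)) (hΛ : Cov Λ) : ∃ F : Finset (∀ j, G j), (∀ f ∈ F, f ∈ Λ) ∧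
      ∀ z : ∀ j, G j, (∀ f ∈ F, z * f = f * z) → z = 1 := by
  classical
  have h1 : ∀ j, ∃ F : Finset (G j), (∀ f ∈ F, f ∈ Λ.map (Pi.evalMonoidHom G j)) ∧
      ∀ z : G j, (∀ f ∈ F, z * f = f * z) → z = 1 := by
    intro j
    refine hG j (Λ.map (Pi.evalMonoidHom G j)) (Λ.map (Pi.evalMonoidHom G j)) subset_closure ?_
    refine cov_map (Pi.evalMonoidHom G j) (continuous_apply j) ?_ Λ _
      (Subgroup.le_comap_map _ _) hΛ
    intro x
    exact ⟨Pi.mulSingle j x, by simp⟩
  choose F hF hFc using h1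
  have h2 : ∀ j, ∀ f : G j, ∃ g : ∀ j, G j, f ∈ F j → g ∈ Λ ∧ g j = f := by
    intro j f
    by_cases hf : f ∈ F j
    · obtain ⟨g, hg, hgf⟩ := hF j f hf
      exact ⟨g, fun _ => ⟨hg, hgf⟩⟩
    · exact ⟨1, fun h => absurd h hf⟩
  choose g hg using h2
  refine ⟨Finset.univ.biUnion fun j => (F j).image (g j), ?_, ?_⟩
  · intro f hf
    rw [Finset.mem_biUnion] at hf
    obtain ⟨j, _, hj⟩ := hf
    obtain ⟨x, hx, rfl⟩ := Finset.mem_image.1 hj
    exact (hg j x hx).1
  · intro z hz
    funext j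
    refine hFc j (z j) fun f hf => ?_
    have h3 := hz (g j f) (Finset.mem_biUnion.2 ⟨j, Finset.mem_univ _, Finset.mem_image_of_mem _ hf⟩)
    have h4 := congrFun h3 j
    rw [Pi.mul_apply, Pi.mul_apply, (hg j f hf).2] at h4
    exact h4

end Vale.Agent.P092.H213.Irr
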