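import Vale.Agent.P092.H213.Irr.Lin
import Vale.Agent.P092.H213.Irr.Ctr
import Vale.Agent.P092.H35.Mx.MinC

/-!
P092, project IRR (helper213): subgroups of finite covolume of linear groups which are overgroups of
factors contain a finite subset with finite centraliser.
-/

set_option linter.all false

open Filter Topology MeasureTheory

namespace Vale.Agent.P092.H213.Irr

open Vale.Agent.P092.H213.Nd (Cov)

/-- Subgroups of finite covolume contain a finite subset with finite centraliser. -/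
def CtrF (G : Type) [Group G] [TopologicalSpace G] : Prop :=
  ∀ M : Subgroup G, Cov M → ∃ F : Finset G, (∀ f ∈ F, f ∈ M) ∧
    {z : G | ∀ f ∈ F, z * f = f * z}.Finite

theorem CtrF.of_ctr {G : Type} [Group G] [TopologicalSpace G] (h : Ctr G) : CtrF G := by
  intro M hM
  obtain ⟨F, hF, hz⟩ := h M M subset_closure hM
  exact ⟨F, hF, (Set.finite_singleton 1).subset fun z hz' => hz z hz'⟩

section main

variable {G : Type} [Group G] [TopologicalSpace G] [IsTopologicalGroup G]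

/-- An element which commutes with a subgroup of finite covolume is trivial, if finite measures which
are invariant under conjugation are trivial. -/
theorem eq_one_of_null
    (null : ∀ [MeasurableSpace G] [BorelSpace G] (ν : Measure G) [IsFiniteMeasure ν],
      (∀ g, ν.map (fun x => g * x * g⁻¹) = ν) → ν {1}ᶜ = 0)
    {M : Subgroup G} (hM : Cov M) {z : G} (hz : ∀ m ∈ M, z * m = m * z) : z = 1 := by
  obtain ⟨ν, h0, hf, hinv⟩ := hM
  letI : MeasurableSpace (G ⧸ M) := borel _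
  haveI : BorelSpace (G ⧸ M) := ⟨rfl⟩
  letI : MeasurableSpace G := borel _
  haveI : BorelSpace G := ⟨rfl⟩
  haveI : IsFiniteMeasure ν := ⟨hf⟩
  obtain ⟨κ, hκ⟩ : ∃ κ : G ⧸ M → G, ∀ x : G, κ (x : G ⧸ M) = x * z * x⁻¹ :=
    ⟨Quotient.lift (fun x : G => x * z * x⁻¹) (by
      intro a c h
      have h1 : a⁻¹ * c ∈ M := QuotientGroup.leftRel_apply.1 h
      show a * z * a⁻¹ = c * z * c⁻¹
      have h2 : c = a * (a⁻¹ * c) := by group
      rw [h2, mul_inv_rev]
      have h3 := hz _ h1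
      calc a * z * a⁻¹ = a * (z * (a⁻¹ * c)) * (a⁻¹ * c)⁻¹ * a⁻¹ := by group
        _ = a * (a⁻¹ * c) * z * ((a⁻¹ * c)⁻¹ * a⁻¹) := by rw [h3]; group), fun x => rfl⟩
  have hc : Continuous κ := by
    refine (QuotientGroup.isQuotientMap_mk M).continuous_iff.2 ?_
    have h1 : Continuous fun x : G => x * z * x⁻¹ := by fun_prop
    exact h1.congr fun x => (hκ x).symm
  have hm : Measurable κ := hc.measurable
  have h1 : ∀ g, (ν.map κ).map (fun x => g * x * g⁻¹) = ν.map κ := by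
    intro g
    have hcg : Continuous fun x : G => g * x * g⁻¹ := by fun_prop
    ext s hs
    rw [Measure.map_apply hcg.measurable hs, Measure.map_apply hm (hcg.measurable hs),
      Measure.map_apply hm hs, ← hinv g _ (hm hs)]
    congr 1
    ext x
    obtain ⟨x, rfl⟩ := QuotientGroup.mk_surjective x
    show g * κ (x : G ⧸ M) * g⁻¹ ∈ s ↔ κ (g • (x : G ⧸ M)) ∈ s
    have h2 : κ (g • (x : G ⧸ M)) = g * κ (x : G ⧸ M) * g⁻¹ := by
      show κ ((g * x : G) : G ⧸ M) = _
      rw [hκ, hκ]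
      group
    rw [h2]
  haveI : IsFiniteMeasure (ν.map κ) := inferInstance
  have h2 := null (ν.map κ) h1
  have h3 : ∃ x, κ x = 1 := by
    by_contra hne
    push Not at hne
    apply h0
    rw [← Measure.measure_univ_eq_zero]
    have h4 : κ ⁻¹' {1}ᶜ = Set.univ := by
      ext x
      simp [hne x]
    have h5 : ν (κ ⁻¹' {1}ᶜ) ≤ (ν.map κ) {1}ᶜ := Measure.le_map_apply hm.aemeasurable _
    rw [h4, h2] at h5
    exact le_antisymm h5 bot_le
  obtain ⟨x, hx⟩ := h3
  obtain ⟨x, rfl⟩ := QuotientGroup.mk_surjective x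
  rw [hκ, mul_inv_eq_one] at hx
  exact mul_eq_left.1 hx

/-- Finite normal subgroups lie in the radical. -/
theorem le_rad (R : Subgroup G) [R.Normal]
    (big : ∀ N : Subgroup (G ⧸ R), N.Normal → N ≠ ⊥ → IsOpen (N : Set (G ⧸ R)) ∧
      ¬ IsCompact (N : Set (G ⧸ R))) (K : Subgroup G) (hn : K.Normal) (hK : Finite K) : K ≤ R := by
  haveI := hK
  have h1 : (K.map (QuotientGroup.mk' R)).Normal :=
    Subgroup.Normal.map hn _ (QuotientGroup.mk'_surjective R)
  have h2 : K.map (QuotientGroup.mk' R) = ⊥ := by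
    by_contra hne
    refine (big _ h1 hne).2 ?_
    rw [Subgroup.coe_map]
    exact ((Set.toFinite (K : Set G)).image _).isCompact
  intro x hx
  have h3 : (QuotientGroup.mk' R) x ∈ K.map (QuotientGroup.mk' R) := ⟨x, hx, rfl⟩
  rw [h2, Subgroup.mem_bot] at h3
  exact (QuotientGroup.eq_one_iff x).1 h3

/-- the minimal condition modulo a finite normal subgroup -/
theorem LinG.exists_min {G : Type} [Group G] (h : LinG G) :
    ∃ (K : Subgroup G) (_ : K.Normal), Finite K ∧ H35.Mx.MinC (G ⧸ K) := by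
  obtain ⟨F, i1, A, i2, i3, i4, ρ, hρ⟩ := h
  refine ⟨ρ.toHomUnits.ker, inferInstance, ?_, ?_⟩
  · have h1 : ρ.toHomUnits.ker = ρ.ker := by
      ext x
      rw [MonoidHom.mem_ker, MonoidHom.mem_ker, Units.ext_iff]
      rfl
    rw [h1]
    exact hρ
  · exact H35.Mx.minC_of_linear (F := F)
      ((Units.coeHom A).comp (QuotientGroup.kerLift ρ.toHomUnits))
      (Units.val_injective.comp (QuotientGroup.kerLift_injective ρ.toHomUnits))

/-- **Finite subsets with finite centraliser.** -/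
theorem ctrF_of (R : Subgroup G) [R.Normal] (hR : Finite R)
    (big : ∀ N : Subgroup (G ⧸ R), N.Normal → N ≠ ⊥ → IsOpen (N : Set (G ⧸ R)) ∧
      ¬ IsCompact (N : Set (G ⧸ R)))
    (null : ∀ [MeasurableSpace (G ⧸ R)] [BorelSpace (G ⧸ R)] (ν : Measure (G ⧸ R))
      [IsFiniteMeasure ν], (∀ g, ν.map (fun x => g * x * g⁻¹) = ν) → ν {1}ᶜ = 0)
    (hl : LinG G) : CtrF G := by
  classical
  intro M hM
  obtain ⟨K, hn, hf, hmin⟩ := hl.exists_min
  have hK : K ≤ R := le_rad R big K hn hf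
  obtain ⟨S, hS, hS'⟩ := hmin ((QuotientGroup.mk : G → G ⧸ K) '' (M : Set G))
  have h4 : ∀ s : S, ∃ k ∈ M, (QuotientGroup.mk k : G ⧸ K) = s.1 := fun s => hS s.2
  choose κ hκ hκ' using h4
  have hRf : (R : Set G).Finite := Set.toFinite _
  -- the centraliser modulo the radical
  have h8 : Cov (M.map (QuotientGroup.mk' R)) :=
    cov_map (QuotientGroup.mk' R) QuotientGroup.continuous_mk
      (QuotientGroup.mk'_surjective R) M _ (Subgroup.le_comap_map _ _) hM
  have key : ∀ z : G, (∀ m ∈ M, (z * m)⁻¹ * (m * z) ∈ R) → z ∈ R := by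
    intro z hz
    have h9 : (QuotientGroup.mk' R) z = 1 := by
      refine eq_one_of_null null h8 ?_
      rintro _ ⟨m, hm, rfl⟩
      rw [← map_mul, ← map_mul]
      exact QuotientGroup.eq.2 (hz m hm)
    exact (QuotientGroup.eq_one_iff z).1 h9
  refine ⟨S.attach.image κ, fun s hs => ?_, hRf.subset fun z hz => key z fun m hm => hK ?_⟩
  · obtain ⟨x, -, rfl⟩ := Finset.mem_image.1 hs
    exact hκ x
  · have h5 : (QuotientGroup.mk z : G ⧸ K) * QuotientGroup.mk m =
        QuotientGroup.mk m * QuotientGroup.mk z := by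
      refine hS' _ (fun s hs => ?_) _ ⟨m, hm, rfl⟩
      have h6 := hz (κ ⟨s, hs⟩) (Finset.mem_image_of_mem _ (Finset.mem_attach _ _))
      have h7 := congrArg (QuotientGroup.mk : G → G ⧸ K) h6
      rw [QuotientGroup.mk_mul, QuotientGroup.mk_mul, hκ'] at h7
      exact h7
    rw [← QuotientGroup.mk_mul, ← QuotientGroup.mk_mul, QuotientGroup.eq] at h5
    exact h5

end main

/-- products -/
theorem exists_centrF {J : Type} [Fintype J] {G : J → Type} [∀ j, Group (G j)]
    [∀ j, TopologicalSpace (G j)] [∀ j, IsTopologicalGroup (G j)] (hG : ∀ j, CtrF (G j))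
    (Λ : Subgroup (∀ j, G j)) (hΛ : Cov Λ) : ∃ F : Finset (∀ j, G j), (∀ f ∈ F, f ∈ Λ) ∧
      {z : ∀ j, G j | ∀ f ∈ F, z * f = f * z}.Finite := by
  classical
  have h1 : ∀ j, ∃ F : Finset (G j), (∀ f ∈ F, f ∈ Λ.map (Pi.evalMonoidHom G j)) ∧
      {z : G j | ∀ f ∈ F, z * f = f * z}.Finite := by
    intro j
    refine hG j (Λ.map (Pi.evalMonoidHom G j)) ?_
    refine cov_map (Pi.evalMonoidHom G j) (continuous_apply j) ?_ Λ _
      (Subgroup.le_comap_map _ _) hΛ
    intro x
    exact ⟨Pi.mulSingle j x, by simp⟩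
  choose F hF hFc using h1
  have h2 : ∀ j, ∀ f : G j, ∃ g : ∀ j, G j, f ∈ F j → g ∈ Λ ∧ g j = f := by
    intro j f
    by_cases hf : f ∈ F j
    · obtain ⟨g, hg, hgf⟩ := hF j f hf
      exact ⟨g, fun _ => ⟨hg, hgf⟩⟩
    · exact ⟨1, fun h => absurd h hf⟩
  choose g hg using h2
  refine ⟨Finset.univ.biUnion fun j => (F j).image (g j), ?_, ?_⟩
  · intro f hf
    rw [Finset.mem_biUnion] at hf
    obtain ⟨j, _, hj⟩ := hf
    obtain ⟨x, hx, rfl⟩ := Finset.mem_image.1 hj
    exact (hg j x hx).1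
  · refine (Set.Finite.pi hFc).subset ?_
    intro z hz j _ f hf
    have h3 := hz (g j f) (Finset.mem_biUnion.2 ⟨j, Finset.mem_univ _, Finset.mem_image_of_mem _ hf⟩)
    have h4 := congrFun h3 j
    rw [Pi.mul_apply, Pi.mul_apply, (hg j f hf).2] at h4
    exact h4

/-- A group which normalises a discrete group with a finite subset of finite centraliser is
discrete. -/
theorem discrete_of_centrF {E : Type} [Group E] [TopologicalSpace E] [IsTopologicalGroup E]
    [T2Space E] {Λ P : Subgroup E} (hd : DiscreteTopology Λ)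
    (hn : ∀ p ∈ P, ∀ l ∈ Λ, p * l * p⁻¹ ∈ Λ) (F : Finset E) (hF : ∀ f ∈ F, f ∈ Λ)
    (hc : {z : E | ∀ f ∈ F, z * f = f * z}.Finite) : DiscreteTopology P := by
  have h1 : ∀ f : F, ∃ U : Set E, IsOpen U ∧ (f : E) ∈ U ∧ ∀ x ∈ U, x ∈ Λ → x = f := by
    intro f
    obtain ⟨U, hU, hU1⟩ : ∃ U : Set E, IsOpen U ∧
        (Subtype.val : Λ → E) ⁻¹' U = {⟨(f : E), hF f f.2⟩} :=
      isOpen_induced_iff.1 (isOpen_discrete ({⟨(f : E), hF f f.2⟩} : Set Λ))
    refine ⟨U, hU, ?_, fun x hx hxΛ => ?_⟩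
    · have : (⟨(f : E), hF f f.2⟩ : Λ) ∈ (Subtype.val : Λ → E) ⁻¹' U := by rw [hU1]; rfl
      exact this
    · have h4 : (⟨x, hxΛ⟩ : Λ) ∈ (Subtype.val : Λ → E) ⁻¹' U := hx
      rw [hU1] at h4
      exact congrArg Subtype.val h4
  choose U hU hfU hUΛ using h1
  have h2 : IsOpen ((⋂ f : F, (fun x : E => x * (f : E) * x⁻¹) ⁻¹' U f) ∩
      ({z : E | ∀ f ∈ F, z * f = f * z} \ {1})ᶜ) :=
    (isOpen_iInter_of_finite fun f => (hU f).preimage (by fun_prop)).inter
      (hc.subset Set.diff_subset).isClosed.isOpen_compl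
  refine discreteTopology_of_isOpen_singleton_one ?_
  have h3 : ({1} : Set P) = (Subtype.val : P → E) ⁻¹'
      ((⋂ f : F, (fun x : E => x * (f : E) * x⁻¹) ⁻¹' U f) ∩
        ({z : E | ∀ f ∈ F, z * f = f * z} \ {1})ᶜ) := by
    ext x
    constructor
    · rintro rfl
      refine ⟨Set.mem_iInter.2 fun f => ?_, fun h => h.2 rfl⟩
      show ((1 : P) : E) * (f : E) * ((1 : P) : E)⁻¹ ∈ U f
      simpa using hfU f
    · rintro ⟨hx, hx1⟩
      have hx' := Set.mem_iInter.1 hx
      by_contra hne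
      refine hx1 ⟨fun f hf => ?_, fun h => hne (Subtype.ext h)⟩
      have h5 : (x : E) * f * (x : E)⁻¹ = f := hUΛ ⟨f, hf⟩ _ (hx' ⟨f, hf⟩) (hn x x.2 f (hF f hf))
      exact mul_inv_eq_iff_eq_mul.1 h5
  rw [h3]
  exact h2.preimage continuous_subtype_val

end Vale.Agent.P092.H213.Irr
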