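import Vale.Agent.P092.H213.Irr.Lin
import Vale.Agent.P092.H35.Mx.MinC

/-!
P092, project IRR (helper213): the quotient of a linear group by a finite central subgroup is linear.
-/

set_option linter.all false

namespace Vale.Agent.P092.H213.Irr

section fn

variable {F A S : Type} [Field F] [Ring A] [Algebra F A] [Group S]

/-- the matrix coefficients -/
def cf (i : S →* A) : Module.Dual F A →ₗ[F] (S → F) where
  toFun l := fun s => l (i s)
  map_add' _ _ := rfl
  map_smul' _ _ := rfl

/-- constants and matrix coefficients -/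
def UU (F : Type) {A S : Type} [Field F] [Ring A] [Algebra F A] [Group S] (i : S →* A) :
    Submodule F (S → F) :=
  Submodule.span F {1} ⊔ LinearMap.range (cf (F := F) i)

theorem UU_fg [FiniteDimensional F A] (i : S →* A) : (UU F i).FG := by
  refine Submodule.FG.sup (Submodule.fg_span (Set.finite_singleton _)) ?_
  haveI : Module.Finite F (LinearMap.range (cf (F := F) i)) := inferInstance
  exact Submodule.FG.of_finite

/-- right translation -/
def rt (F : Type) {S : Type} [Field F] [Group S] (s : S) : (S → F) →ₐ[F] (S → F) where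
  toFun φ := fun x => φ (x * s)
  map_one' := rfl
  map_mul' _ _ := rfl
  map_zero' := rfl
  map_add' _ _ := rfl
  commutes' _ := rfl

theorem rt_apply (s : S) (φ : S → F) (x : S) : rt F s φ x = φ (x * s) := rfl

theorem rt_UU (i : S →* A) (s : S) : (UU F i).map (rt F s).toLinearMap ≤ UU F i := by
  unfold UU
  rw [Submodule.map_sup, Submodule.map_span, Set.image_singleton]
  refine sup_le_sup (le_of_eq ?_) ?_
  · congr 1
  · rintro _ ⟨_, ⟨l, rfl⟩, rfl⟩
    refine ⟨l.comp (LinearMap.mulRight F (i s)), ?_⟩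
    funext x
    show l (i x * i s) = l (i (x * s))
    rw [map_mul i]

theorem pow_mono' {U V : Submodule F (S → F)} (h : U ≤ V) (m : ℕ) : U ^ m ≤ V ^ m := by
  induction m with
  | zero => rw [pow_zero, pow_zero]
  | succ n ih => rw [pow_succ, pow_succ]; exact mul_le_mul' ih h

theorem rt_pow (i : S →* A) (s : S) (m : ℕ) {φ : S → F} (hφ : φ ∈ UU F i ^ m) :
    rt F s φ ∈ UU F i ^ m := by
  have h1 : (UU F i ^ m).map (rt F s).toLinearMap = (UU F i).map (rt F s).toLinearMap ^ m :=
    Submodule.map_pow _ _ _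
  have h2 : (UU F i).map (rt F s).toLinearMap ^ m ≤ UU F i ^ m :=
    pow_mono' (rt_UU i s) m
  exact h2 (h1 ▸ ⟨φ, hφ, rfl⟩)

/-- the invariants of `Z` -/
def WW (i : S →* A) (Z : Subgroup S) (m : ℕ) : Submodule F (S → F) where
  carrier := {φ | φ ∈ UU F i ^ m ∧ ∀ z ∈ Z, rt F z φ = φ}
  add_mem' := fun {a c} ha hc => ⟨Submodule.add_mem _ ha.1 hc.1, fun z hz => by
    rw [map_add, ha.2 z hz, hc.2 z hz]⟩
  zero_mem' := ⟨Submodule.zero_mem _, fun z _ => map_zero _⟩
  smul_mem' := fun t a ha => ⟨Submodule.smul_mem _ _ ha.1, fun z hz => by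
    rw [map_smul, ha.2 z hz]⟩

theorem WW_fin [FiniteDimensional F A] (i : S →* A) (Z : Subgroup S) (m : ℕ) :
    FiniteDimensional F (WW (F := F) i Z m) := by
  have h1 : (UU F i ^ m).FG := Submodule.FG.pow (UU_fg i) m
  haveI : FiniteDimensional F ↥(UU F i ^ m) := Module.Finite.iff_fg.2 h1
  have h2 : WW (F := F) i Z m ≤ UU F i ^ m := fun φ hφ => hφ.1
  exact Submodule.finiteDimensional_of_le h2

theorem rt_WW (i : S →* A) {Z : Subgroup S} (hZ : Z ≤ Subgroup.center S) (m : ℕ) (s : S)
    (φ : S → F) (hφ : φ ∈ WW (F := F) i Z m) : (rt F s).toLinearMap φ ∈ WW (F := F) i Z m := by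
  refine ⟨rt_pow i s m hφ.1, fun z hz => ?_⟩
  have h1 := Subgroup.mem_center_iff.1 (hZ hz) s
  funext x
  show φ (x * z * s) = φ (x * s)
  have h2 := congrFun (hφ.2 z hz) (x * s)
  rw [rt_apply] at h2
  rw [← h2, mul_assoc, mul_assoc, h1]

/-- the representation on the invariants -/
def rW (F : Type) {A S : Type} [Field F] [Ring A] [Algebra F A] [Group S] (i : S →* A)
    {Z : Subgroup S} (hZ : Z ≤ Subgroup.center S) (m : ℕ) :
    S →* Module.End F (WW (F := F) i Z m) where
  toFun s := (rt F s).toLinearMap.restrict (rt_WW i hZ m s)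
  map_one' := by
    ext φ x
    show (φ : S → F) (x * 1) = (φ : S → F) x
    rw [mul_one]
  map_mul' s t := by
    ext φ x
    show (φ : S → F) (x * (s * t)) = (φ : S → F) (x * s * t)
    rw [mul_assoc]

theorem rW_apply (i : S →* A) {Z : Subgroup S} (hZ : Z ≤ Subgroup.center S) (m : ℕ) (s : S)
    (φ : WW (F := F) i Z m) (x : S) : (rW F i hZ m s φ : S → F) x = (φ : S → F) (x * s) := rfl

theorem rW_mem (i : S →* A) {Z : Subgroup S} (hZ : Z ≤ Subgroup.center S) (m : ℕ) {s : S}
    (hs : s ∈ Z) : rW F i hZ m s = 1 := by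
  ext φ x
  rw [rW_apply]
  have h2 := congrFun (φ.2.2 s hs) x
  exact h2

/-- the norm of `c - l` -/
theorem norm_mem (i : S →* A) {Z : Subgroup S} [Fintype Z] (hZ : Z ≤ Subgroup.center S)
    (l : Module.Dual F A) (c : F) :
    (fun s : S => ∏ z : Z, (c - l (i (s * z)))) ∈ WW (F := F) i Z (Fintype.card Z) := by
  constructor
  · have h1 : (fun s : S => ∏ z : Z, (c - l (i (s * z)))) =
        ∏ z : Z, (fun s : S => c - l (i (s * z))) := by
      funext s
      rw [Finset.prod_apply]
    have h2 : ∀ z : Z, (fun s : S => c - l (i (s * z))) ∈ UU F i := by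
      intro z
      have e : (fun s : S => c - l (i (s * z))) =
          c • (1 : S → F) + cf i (-(l.comp (LinearMap.mulRight F (i z)))) := by
        funext s
        show c - l (i (s * z)) = c * 1 + -(l (i s * i z))
        rw [map_mul]
        ring
      rw [e]
      exact Submodule.add_mem _
        (Submodule.mem_sup_left (Submodule.smul_mem _ _ (Submodule.mem_span_singleton_self _)))
        (Submodule.mem_sup_right ⟨_, rfl⟩)
    have h3 : ∀ T : Finset Z, ∏ z ∈ T, (fun s : S => c - l (i (s * z))) ∈ UU F i ^ T.card := by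
      classical
      intro T
      induction T using Finset.induction_on with
      | empty =>
        rw [Finset.prod_empty, Finset.card_empty, pow_zero]
        exact Submodule.one_le.1 le_rfl
      | insert a T ha ih =>
        rw [Finset.prod_insert ha, Finset.card_insert_of_notMem ha, pow_succ']
        exact Submodule.mul_mem_mul (h2 a) ih
    rw [h1]
    exact h3 Finset.univ
  · intro z hz
    funext s
    show ∏ w : Z, (c - l (i (s * z * w))) = ∏ w : Z, (c - l (i (s * w)))
    refine Fintype.prod_equiv (Equiv.mulLeft (⟨z, hz⟩ : Z)) _ _ fun w => ?_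
    show c - l (i (s * z * w)) = c - l (i (s * (z * w)))
    rw [mul_assoc]

/-- the kernel -/
theorem mem_of_rW [Infinite F] (i : S →* A) (hi : Function.Injective i) {Z : Subgroup S}
    [Fintype Z] (hZ : Z ≤ Subgroup.center S) {s : S} (hs : rW F i hZ (Fintype.card Z) s = 1) :
    s ∈ Z := by
  classical
  have h1 : ∀ l : Module.Dual F A, ∃ z : Z, l (i s - i z) = 0 := by
    intro l
    have h2 := congrArg (fun T : Module.End F (WW (F := F) i Z (Fintype.card Z)) =>
      (T ⟨_, norm_mem i hZ l (l (i s))⟩ : S → F) 1) hs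
    have h3 : ∏ w : Z, (l (i s) - l (i (1 * s * w))) = ∏ w : Z, (l (i s) - l (i (1 * w))) := h2
    have h4 : ∏ w : Z, (l (i s) - l (i (1 * s * w))) = 0 := by
      refine Finset.prod_eq_zero (Finset.mem_univ (1 : Z)) ?_
      rw [one_mul, Subgroup.coe_one, mul_one, sub_self]
    rw [h4] at h3
    obtain ⟨z, _, hz⟩ := Finset.prod_eq_zero_iff.1 h3.symm
    refine ⟨z, ?_⟩
    rw [map_sub]
    rw [one_mul] at hz
    exact hz
  have h2 : ⋃ z : Z,
      ((LinearMap.ker (Module.Dual.eval F A (i s - i z)) : Subspace F (Module.Dual F A)) :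
        Set (Module.Dual F A)) = Set.univ := by
    rw [Set.eq_univ_iff_forall]
    intro l
    obtain ⟨z, hz⟩ := h1 l
    exact Set.mem_iUnion.2 ⟨z, hz⟩
  obtain ⟨z, hz⟩ := Subspace.exists_eq_top_of_iUnion_eq_univ h2
  have h3 : i s - i z = 0 := by
    rw [← Module.forall_dual_apply_eq_zero_iff F]
    intro l
    have h4 : l ∈ LinearMap.ker (Module.Dual.eval F A (i s - i z)) := by rw [hz]; trivial
    exact h4
  rw [hi (sub_eq_zero.1 h3)]
  exact z.2

/-- **The quotient of a linear group by a finite central subgroup is linear**, faithfully. -/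
theorem fai_quo [Infinite F] [FiniteDimensional F A] {G : Type} [Group G] (i : S →* A)
    (hi : Function.Injective i) (f : S →* G) (hf : Function.Surjective f)
    (hk : f.ker ≤ Subgroup.center S) (hfin : Finite f.ker) :
    ∃ (B : Type) (_ : Ring B) (_ : Algebra F B) (_ : FiniteDimensional F B) (σ : G →* B),
      Function.Injective σ := by
  classical
  haveI := Fintype.ofFinite f.ker
  choose r hr using hf
  obtain ⟨ρ, hρ⟩ : ∃ ρ, ρ = rW F i hk (Fintype.card f.ker) := ⟨_, rfl⟩
  have hc : ∀ s t : S, f s = f t → ρ s = ρ t := by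
    intro s t hst
    have h1 : s⁻¹ * t ∈ f.ker := by
      rw [MonoidHom.mem_ker, map_mul, map_inv, hst, inv_mul_cancel]
    have h2 : ρ (s⁻¹ * t) = 1 := by rw [hρ]; exact rW_mem i hk _ h1
    have h3 : ρ t = ρ s * ρ (s⁻¹ * t) := by rw [← map_mul, mul_inv_cancel_left]
    rw [h3, h2, mul_one]
  haveI := WW_fin (F := F) i f.ker (Fintype.card f.ker)
  obtain ⟨σ, hσ⟩ : ∃ σ : G →* Module.End F (WW (F := F) i f.ker (Fintype.card f.ker)),
      ∀ g, σ g = ρ (r g) :=
    ⟨{ toFun := fun g => ρ (r g)
       map_one' := by rw [hc (r 1) 1 (by rw [hr, map_one]), map_one]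
       map_mul' := fun g h => by
        rw [hc (r (g * h)) (r g * r h) (by rw [hr, map_mul, hr, hr]), map_mul] }, fun _ => rfl⟩
  have key : ∀ g, σ g = 1 → g = 1 := by
    intro g hg
    rw [hσ, hρ] at hg
    have h1 := mem_of_rW i hi hk hg
    have h2 : f (r g) = 1 := h1
    rw [hr] at h2
    exact h2
  refine ⟨Module.End F (WW (F := F) i f.ker (Fintype.card f.ker)), inferInstance, inferInstance,
    inferInstance, σ, fun a b hab => ?_⟩
  have h1 : σ (a * b⁻¹) = 1 := by
    have h2 : σ b * σ b⁻¹ = 1 := by rw [← map_mul, mul_inv_cancel, map_one]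
    rw [map_mul, hab, h2]
  exact mul_inv_eq_one.1 (key _ h1)

end fn

/-- `G` has a faithful finite-dimensional linear representation. -/
def FaiG (G : Type) [Group G] : Prop :=
  ∃ (F : Type) (_ : Field F) (A : Type) (_ : Ring A) (_ : Algebra F A)
    (_ : FiniteDimensional F A) (ρ : G →* A), Function.Injective ρ

theorem FaiG.minC {G : Type} [Group G] (h : FaiG G) : H35.Mx.MinC G := by
  obtain ⟨F, i1, A, i2, i3, i4, ρ, hρ⟩ := h
  exact H35.Mx.minC_of_linear (F := F) ρ hρ

theorem FaiG.linG {G : Type} [Group G] (h : FaiG G) : LinG G := by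
  obtain ⟨F, i1, A, i2, i3, i4, ρ, hρ⟩ := h
  refine ⟨F, i1, A, i2, i3, i4, ρ, ?_⟩
  have h1 : ρ.ker = ⊥ := by
    rw [eq_bot_iff]
    intro g hg
    rw [Subgroup.mem_bot]
    apply hρ
    rw [map_one]
    exact hg
  rw [h1]
  infer_instance

/-- Groups with a linear subgroup of finite index are linear. -/
theorem FaiG.of_fi {G : Type} [Group G] {N : Subgroup G} [N.FiniteIndex] (h : FaiG N) : FaiG G := by
  classical
  obtain ⟨F, i1, A, i2, i3, i4, σ, hσ⟩ := h
  haveI : Fintype (G ⧸ N) := Subgroup.fintypeQuotientOfFiniteIndex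
  rcases subsingleton_or_nontrivial A with hA | hA
  · -- `N` is trivial, use the regular representation
    have h1 : Subsingleton N := ⟨fun a b => hσ (Subsingleton.elim _ _)⟩
    haveI : Finite G := by
      haveI : Finite (G ⧸ N) := inferInstance
      haveI : Finite N := inferInstance
      exact Finite.of_equiv _ (Subgroup.groupEquivQuotientProdSubgroup (s := N)).symm
    haveI := Fintype.ofFinite G
    refine ⟨ℚ, inferInstance, Module.End ℚ (G → ℚ), inferInstance, inferInstance, inferInstance,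
      { toFun := fun s => (rt ℚ s).toLinearMap
        map_one' := ?_
        map_mul' := fun s t => ?_ }, ?_⟩
    · ext φ x
      simp [rt_apply]
    · ext φ x
      simp [rt_apply, mul_assoc]
    · intro s t hst
      have h2 := congrArg (fun T : Module.End ℚ (G → ℚ) => T (Pi.single t 1) 1) hst
      have h3 : (Pi.single t (1 : ℚ) : G → ℚ) (1 * s) = (Pi.single t (1 : ℚ) : G → ℚ) (1 * t) := h2
      rw [one_mul, one_mul, Pi.single_eq_same] at h3
      by_contra hne
      rw [Pi.single_eq_of_ne hne] at h3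
      exact zero_ne_one h3
  · refine ⟨F, i1, Matrix (G ⧸ N) (G ⧸ N) A, inferInstance, inferInstance, inferInstance,
      indr σ, ?_⟩
    have key : ∀ g, indr σ g = 1 → g = 1 := by
      intro g hg
      obtain ⟨t, ht⟩ : ∃ t : G, t = Quotient.out ((1 : G) : G ⧸ N) := ⟨_, rfl⟩
      have h3 := congrFun (congrFun hg ((1 : G) : G ⧸ N)) ((1 : G) : G ⧸ N)
      rw [Matrix.one_apply_eq] at h3
      have h4 : ex0 N σ (t⁻¹ * (g * t)) = 1 := by rw [ht]; exact h3
      by_cases h5 : t⁻¹ * (g * t) ∈ N
      · rw [ex0_mem σ h5] at h4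
        have h6 : (⟨_, h5⟩ : N) = 1 := hσ (by rw [h4, map_one])
        have h7 : t⁻¹ * (g * t) = 1 := congrArg Subtype.val h6
        have h8 : g * t = t := inv_mul_eq_one.1 h7 |>.symm
        exact mul_eq_right.1 h8
      · rw [ex0_not σ h5] at h4
        exact absurd h4.symm one_ne_zero
    intro a b hab
    have h1 : indr σ (a * b⁻¹) = 1 := by
      have h2 : indr σ b * indr σ b⁻¹ = 1 := by rw [← map_mul, mul_inv_cancel, map_one]
      rw [map_mul, hab, h2]
    exact mul_inv_eq_one.1 (key _ h1)

end Vale.Agent.P092.H213.Irr
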