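import Vale.Agent.P092.H213.Irr.Main
import Vale.Agent.P092.H259.Fk.Fin

/-!
P092, project IRR (helper213): the main theorem for irreducible lattices.
-/

set_option linter.all false

namespace Vale.Agent.P092.UN

/-- **Q1 for all irreducible lattices** in products of simple groups over local fields of
characteristic zero. -/
theorem superAll_irr (Γ : Type) [Group Γ] (h : IrrLattice Γ) : SuperAll Γ :=
  H259.Fk.superAll_classF Γ (H213.Irr.classF_of_irr h)

end Vale.Agent.P092.UN
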