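import Vale.Agent.P092.H213.Irr.Lin
import Vale.Agent.P092.H213.Irr.Ctr
import Vale.Agent.P092.UN.ClsL

/-!
P092, project IRR (helper213): the groups of the classes `ClsV` and `IsLieG` have linear
representations with finite kernel.
-/

set_option linter.all false

open Matrix
open scoped commutatorElement

namespace Vale.Agent.P092.H213.Irr

theorem linG_lieG {G : Type} [Group G] [TopologicalSpace G] (h : UN.IsLieG G) : LinG G := by
  obtain ⟨k, i0, hp, hc, L, i1, i2, n, b, ρ, hr⟩ := lieG_ra h
  haveI := H144.Rp.fin_of b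
  refine ⟨k, inferInstance, Module.End k L, inferInstance, inferInstance, inferInstance, ρ, ?_⟩
  have h1 : ρ.ker = ⊥ := by
    rw [eq_bot_iff]
    intro g hg
    rw [Subgroup.mem_bot]
    apply hr.inj
    rw [map_one]
    exact hg
  rw [h1]
  infer_instance

/-- central quotients of linear groups -/
theorem linG_quo {F A E G : Type} [Field F] [Ring A] [Algebra F A] [FiniteDimensional F A] [Group E]
    [TopologicalSpace E] {S : Subgroup E} [Group G] [TopologicalSpace G] (i : E →* A)
    (hi : Function.Injective i) (hG : UN.QuoS S G) (hf : Finite (Subgroup.center G)) : LinG G := by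
  obtain ⟨f, hq, hk⟩ := hG
  obtain ⟨B, j1, j2, j3, σ, hσ⟩ := lin_quo (F := F) (i.comp S.subtype)
    (hi.comp S.subtype_injective) f hq.surjective hk
  refine ⟨F, inferInstance, B, j1, j2, j3, σ, ?_⟩
  haveI := hf
  exact Finite.of_injective (Subgroup.inclusion hσ) (Subgroup.inclusion_injective hσ)

theorem linG_cls {G : Type} [Group G] [TopologicalSpace G] (h : UN.Cls G)
    (hf : Finite (Subgroup.center G)) : LinG G := by
  classical
  obtain ⟨k, i0, hp, hk, h1⟩ := h
  rcases h1 with h1 | ⟨D, j1, j2, ⟨hfd, hce⟩, h1⟩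
  · obtain ⟨σ, ε, ι, k1, k2, J₀, q, S, -, -, -, -, -, -, -, h2⟩ := h1
    have hi' : Function.Injective
        ((Units.coeHom _).comp (SpecialLinearGroup.toGL (n := (Fin q ⊕ Fin q) ⊕ ι) (R := k))) :=
      Units.val_injective.comp SpecialLinearGroup.toGL_injective
    rcases h2 with ⟨-, h2⟩ | ⟨-, -, -, -, h2⟩
    · exact linG_quo (F := k) _ hi' h2 hf
    · exact linG_quo (F := k) _ hi' h2 hf
  · haveI := hfd
    rcases h1 with ⟨n, -, h2⟩ | ⟨-, -, j3, -, ε, ι, k1, k2, J₀, q, S, -, -, -, -, h2⟩
    · exact linG_quo (F := k) (Units.coeHom (Matrix (Fin n) (Fin n) D)) Units.val_injective h2 hf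
    · exact linG_quo (F := k)
        (Units.coeHom (Matrix ((Fin q ⊕ Fin q) ⊕ ι) ((Fin q ⊕ Fin q) ⊕ ι) D))
        Units.val_injective h2 hf

theorem linG_clsV {G : Type} [Group G] [TopologicalSpace G] (h : UN.ClsV G)
    (hf : ∀ (N : Type) [Group N] [TopologicalSpace N], UN.Cls N → Finite (Subgroup.center N)) :
    LinG G := by
  obtain ⟨ht, N, hn, hi, ho, hc⟩ := h
  haveI := hi
  exact LinG.of_fi (linG_cls hc (hf N hc))

end Vale.Agent.P092.H213.Irr
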