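import Vale.Agent.P092.H213.Irr.MainG
import Vale.Agent.P092.H213.Irr.LinC
import Vale.Agent.P092.H213.Irr.ClsG
import Vale.Agent.P092.H259.Fk.Fin
import Vale.Agent.P092.H333.V.Ov2
import Vale.Agent.P092.UN.ClsE
import Vale.Agent.P092.H144.Nc.All

/-!
P092, project IRR (helper213): the main theorem for lattices without discrete projections and for
irreducible lattices in products of classical groups over local fields and of simple groups over local
fields of characteristic zero.
-/

set_option linter.all false

namespace Vale.Agent.P092.H213.Irr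

open Vale.Agent.P092.H259.Fk (OvG ovG_clsV lieG_ov lat_proper' superAll_prop)

theorem ctrF_ovG {G : Type} [Group G] [TopologicalSpace G] (h : OvG G) (hl : LinG G) : CtrF G := by
  obtain ⟨M, gM, tM, φ, r, ho⟩ := h
  haveI := ho.top
  obtain ⟨R, hR⟩ := H333.V.exists_rad ho
  haveI := hR.normal
  have hF := H333.V.facV_quo ho hR
  exact ctrF_of R hR.fin hF.big hF.null hl

theorem center_cls (N : Type) [Group N] [TopologicalSpace N] (h : UN.Cls N) :
    Finite (Subgroup.center N) := by
  obtain ⟨r, hr⟩ := UN.cls_qf h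
  exact hr.fin

theorem ctrF_class {G : Type} [Group G] [TopologicalSpace G] (h : UN.ClsV G ∨ UN.IsLieG G) :
    CtrF G := by
  rcases h with h | h
  · exact ctrF_ovG (ovG_clsV h) (linG_clsV h fun N _ _ hN => center_cls N hN)
  · exact CtrF.of_ctr (ctr_lieG h)

theorem ovG_class {G : Type} [Group G] [TopologicalSpace G] (h : UN.ClsV G ∨ UN.IsLieG G) :
    OvG G := h.elim ovG_clsV lieG_ov

theorem nd_class {G : Type} [Group G] [TopologicalSpace G] (h : UN.ClsV G ∨ UN.IsLieG G) :
    H213.Nd.ND G := h.elim H144.Nc.nd_clsV H213.Nd.nd_lieG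

theorem top_class {G : Type} [Group G] [TopologicalSpace G] (h : UN.ClsV G ∨ UN.IsLieG G) :
    IsTopologicalGroup G ∧ T2Space G ∧ SecondCountableTopology G ∧ LocallyCompactSpace G := by
  obtain ⟨M, gM, tM, φ, r, ho⟩ := ovG_class h
  exact ⟨ho.top, H333.V.Ov.t2 ho, H333.V.Ov.sc ho, H333.V.Ov.lc ho⟩

/-- **A lattice with a discrete projection to a factor is reducible**, for the whole class. -/
theorem red_fin_class {Γ I : Type} [Group Γ] [Fintype I] {G : I → Type} [∀ j, Group (G j)]
    [∀ j, TopologicalSpace (G j)] (hG : ∀ j, UN.ClsV (G j) ∨ UN.IsLieG (G j))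
    (q : Γ →* ∀ j, G j) (hq : H515.IsLattice q.range) (i : I)
    (hd : DiscreteTopology (Set.range fun g => q g i)) : (UN.Red q i).FiniteIndex := by
  haveI : ∀ j, IsTopologicalGroup (G j) := fun j => (top_class (hG j)).1
  haveI : ∀ j, T2Space (G j) := fun j => (top_class (hG j)).2.1
  haveI : ∀ j, SecondCountableTopology (G j) := fun j => (top_class (hG j)).2.2.1
  haveI : ∀ j, LocallyCompactSpace (G j) := fun j => (top_class (hG j)).2.2.2
  exact red_fin_of (fun j => ctrF_class (hG j)) q hq i hd

/-- **Irreducible lattices have no discrete projection.** -/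
theorem classN_of_irr {Γ : Type} [Group Γ] (h : UN.IrrLatticeN Γ) : UN.ClassLatticeN Γ := by
  obtain ⟨hicc, I, i1, G, i2, i3, E, i4, i5, f, i, i6, hf, hr, hi, hl, hj⟩ := h
  haveI : ∀ j, IsTopologicalGroup (G j) := fun j => (top_class (hj j).1).1
  haveI : ∀ j, T2Space (G j) := fun j => (top_class (hj j).1).2.1
  haveI : ∀ j, LocallyCompactSpace (G j) := fun j => (top_class (hj j).1).2.2.2
  have h1 := (lat_proper' hicc f hf hr i hi ⟨hl.disc, hl.covol⟩).2
  refine ⟨hicc, I, i1, G, i2, i3, E, i4, i5, f, i, i6, hf, hr, hi, hl, fun j =>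
    ⟨(hj j).1, fun hd => (hj j).2 ?_⟩⟩
  exact red_fin_class (fun j => (hj j).1) (f.comp i) ⟨h1.disc, h1.covol⟩ j hd

end Vale.Agent.P092.H213.Irr

namespace Vale.Agent.P092.UN

/-- **Q1 for all lattices without discrete projections** in products of classical groups over local
fields and of simple groups over local fields of characteristic zero. -/
theorem superAll_classN (Γ : Type) [Group Γ] (h : ClassLatticeN Γ) : SuperAll Γ := by
  obtain ⟨hicc, I, hI, G, hg, ht, E, gE, tE, f, i, htE, hf, hr, hi, hl, hd⟩ := h
  exact H259.Fk.superAll_prop hicc f hf hr i hi hl (fun j => H213.Irr.ovG_class (hd j).1)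
    fun j => Or.inr ⟨H213.Irr.nd_class (hd j).1, (hd j).2⟩

/-- **Q1 for all irreducible lattices** in products of at least two classical groups over local fields
or simple groups over local fields of characteristic zero. -/
theorem superAll_irrN (Γ : Type) [Group Γ] (h : IrrLatticeN Γ) : SuperAll Γ :=
  superAll_classN Γ (H213.Irr.classN_of_irr h)

end Vale.Agent.P092.UN
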