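import Mathlib

/-!
P092, project IRR (helper213): linear representations with finite kernel, of central quotients and of
groups with a subgroup of finite index.
-/

set_option linter.all false

namespace Vale.Agent.P092.H213.Irr

/-- `G` has a finite-dimensional linear representation with finite kernel. -/
def LinG (G : Type) [Group G] : Prop :=
  ∃ (F : Type) (_ : Field F) (A : Type) (_ : Ring A) (_ : Algebra F A)
    (_ : FiniteDimensional F A) (ρ : G →* A), Finite ρ.ker

/-! ### Central quotients -/

section cen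

variable {F A S G : Type} [Field F] [Ring A] [Algebra F A] [Group S] [Group G]

/-- the span of `S` -/
def spn (F : Type) {A S : Type} [Field F] [Ring A] [Algebra F A] [Group S] (i : S →* A) :
    Submodule F A :=
  Submodule.span F (Set.range i)

theorem conj_mem (i : S →* A) (s : S) (w : A) (hw : w ∈ spn F i) :
    (LinearMap.mulLeft F (i s)).comp (LinearMap.mulRight F (i s⁻¹)) w ∈ spn F i := by
  rw [LinearMap.comp_apply, LinearMap.mulLeft_apply, LinearMap.mulRight_apply]
  unfold spn at hw ⊢
  induction hw using Submodule.span_induction with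
  | mem x hx =>
    obtain ⟨y, rfl⟩ := hx
    refine Submodule.subset_span ⟨s * (y * s⁻¹), ?_⟩
    rw [map_mul, map_mul]
  | zero => rw [zero_mul, mul_zero]; exact Submodule.zero_mem _
  | add a c _ _ ha hc => rw [add_mul, mul_add]; exact Submodule.add_mem _ ha hc
  | smul t a _ ha => rw [smul_mul_assoc, mul_smul_comm]; exact Submodule.smul_mem _ _ ha

/-- the action by conjugation on the span -/
def cj (F : Type) {A S : Type} [Field F] [Ring A] [Algebra F A] [Group S] (i : S →* A) :
    S →* Module.End F (spn F i) where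
  toFun s := ((LinearMap.mulLeft F (i s)).comp (LinearMap.mulRight F (i s⁻¹))).restrict
    (conj_mem i s)
  map_one' := by
    ext w
    show i 1 * ((w : A) * i (1 : S)⁻¹) = w
    rw [inv_one, map_one, one_mul, mul_one]
  map_mul' s t := by
    ext w
    show i (s * t) * ((w : A) * i (s * t)⁻¹) = i s * ((i t * ((w : A) * i t⁻¹)) * i s⁻¹)
    rw [mul_inv_rev, map_mul, map_mul]
    simp only [mul_assoc]

theorem cj_apply (i : S →* A) (s : S) (w : spn F i) :
    ((cj F i s w : spn F i) : A) = i s * ((w : A) * i s⁻¹) := rfl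

theorem cj_center (i : S →* A) {s : S} (hs : s ∈ Subgroup.center S) : cj F i s = 1 := by
  ext ⟨w, hw⟩
  rw [cj_apply]
  show i s * (w * i s⁻¹) = w
  unfold spn at hw
  induction hw using Submodule.span_induction with
  | mem x hx =>
    obtain ⟨y, rfl⟩ := hx
    rw [← map_mul, ← map_mul]
    congr 1
    have := Subgroup.mem_center_iff.1 hs y
    rw [← mul_assoc, ← this, mul_assoc, mul_inv_cancel, mul_one]
  | zero => rw [zero_mul, mul_zero]
  | add a c _ _ ha hc => rw [add_mul, mul_add, ha, hc]
  | smul t a _ ha => rw [smul_mul_assoc, mul_smul_comm, ha]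

theorem center_of_cj (i : S →* A) (hi : Function.Injective i) {s : S} (hs : cj F i s = 1) :
    s ∈ Subgroup.center S := by
  rw [Subgroup.mem_center_iff]
  intro y
  have h1 := congrArg (fun T : Module.End F (spn F i) =>
    ((T ⟨i y, Submodule.subset_span ⟨y, rfl⟩⟩ : spn F i) : A)) hs
  have h2 : i s * (i y * i s⁻¹) = i y := h1
  rw [← map_mul, ← map_mul] at h2
  have h3 := hi h2
  rw [← mul_assoc, mul_inv_eq_iff_eq_mul] at h3
  exact h3.symm

/-- **Central quotients of linear groups** have a linear representation with central kernel. -/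
theorem lin_quo [FiniteDimensional F A] (i : S →* A) (hi : Function.Injective i) (f : S →* G)
    (hf : Function.Surjective f) (hk : f.ker ≤ Subgroup.center S) :
    ∃ (B : Type) (_ : Ring B) (_ : Algebra F B) (_ : FiniteDimensional F B) (σ : G →* B),
      σ.ker ≤ Subgroup.center G := by
  choose r hr using hf
  have hc : ∀ s t : S, f s = f t → cj F i s = cj F i t := by
    intro s t hst
    have h1 : s⁻¹ * t ∈ Subgroup.center S := hk (by
      rw [MonoidHom.mem_ker, map_mul, map_inv, hst, inv_mul_cancel])
    have h2 := cj_center (F := F) i h1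
    have h3 : cj F i t = cj F i s * cj F i (s⁻¹ * t) := by
      rw [← map_mul, mul_inv_cancel_left]
    rw [h3, h2, mul_one]
  refine ⟨Module.End F (spn F i), inferInstance, inferInstance, inferInstance,
    { toFun := fun g => cj F i (r g)
      map_one' := ?_
      map_mul' := fun g h => ?_ }, ?_⟩
  · rw [hc (r 1) 1 (by rw [hr, map_one]), map_one]
  · rw [hc (r (g * h)) (r g * r h) (by rw [hr, map_mul, hr, hr]), map_mul]
  · intro g hg
    have h1 : cj F i (r g) = 1 := hg
    have h2 := center_of_cj i hi h1
    rw [Subgroup.mem_center_iff]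
    intro x
    have h3 := congrArg f (Subgroup.mem_center_iff.1 h2 (r x))
    rw [map_mul, map_mul, hr, hr] at h3
    exact h3

end cen

/-! ### Subgroups of finite index -/

section ind

variable {F A G : Type} [Field F] [Ring A] [Algebra F A] [Group G] (N : Subgroup G)

open Classical in
/-- extension by zero -/
noncomputable def ex0 (σ : N →* A) (g : G) : A := if h : g ∈ N then σ ⟨g, h⟩ else 0

variable {N}

theorem ex0_mem (σ : N →* A) {g : G} (h : g ∈ N) : ex0 N σ g = σ ⟨g, h⟩ := dif_pos h

theorem ex0_not (σ : N →* A) {g : G} (h : g ∉ N) : ex0 N σ g = 0 := dif_neg h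

theorem ex0_mul (σ : N →* A) (g : G) {h : G} (hh : h ∈ N) :
    ex0 N σ (g * h) = ex0 N σ g * ex0 N σ h := by
  by_cases hg : g ∈ N
  · rw [ex0_mem σ hg, ex0_mem σ hh, ex0_mem σ (N.mul_mem hg hh), ← map_mul]
    rfl
  · rw [ex0_not σ hg, ex0_not σ (fun h' => hg ((N.mul_mem_cancel_right hh).1 h')), zero_mul]

theorem out_mem_iff (i : G ⧸ N) (g : G) : (Quotient.out i)⁻¹ * g ∈ N ↔ i = (g : G ⧸ N) := by
  rw [← QuotientGroup.eq, QuotientGroup.out_eq']

/-- the induced representation -/
noncomputable def indr [Fintype (G ⧸ N)] [DecidableEq (G ⧸ N)] (σ : N →* A) :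
    G →* Matrix (G ⧸ N) (G ⧸ N) A where
  toFun g := fun i j => ex0 N σ ((Quotient.out i)⁻¹ * (g * Quotient.out j))
  map_one' := by
    ext i j
    rw [one_mul]
    by_cases hij : i = j
    · subst hij
      rw [Matrix.one_apply_eq, inv_mul_cancel, ex0_mem σ N.one_mem]
      exact map_one σ
    · rw [Matrix.one_apply_ne hij]
      refine ex0_not σ fun h => hij ?_
      rw [out_mem_iff, QuotientGroup.out_eq'] at h
      exact h
  map_mul' g h := by
    ext i k
    show ex0 N σ ((Quotient.out i)⁻¹ * (g * h * Quotient.out k)) =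
      ∑ j : G ⧸ N, ex0 N σ ((Quotient.out i)⁻¹ * (g * Quotient.out j)) *
        ex0 N σ ((Quotient.out j)⁻¹ * (h * Quotient.out k))
    rw [Finset.sum_eq_single ((h * Quotient.out k : G) : G ⧸ N)]
    · have h1 : (Quotient.out ((h * Quotient.out k : G) : G ⧸ N))⁻¹ * (h * Quotient.out k) ∈ N :=
        (out_mem_iff _ _).2 rfl
      rw [← ex0_mul σ _ h1]
      congr 1
      group
    · intro j _ hj
      rw [ex0_not σ (fun h' => hj ((out_mem_iff j _).1 h')), mul_zero]
    · intro h'
      exact absurd (Finset.mem_univ _) h'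

/-- **Groups with a subgroup of finite index** with a linear representation with finite kernel. -/
theorem LinG.of_fi [N.FiniteIndex] (h : LinG N) : LinG G := by
  classical
  obtain ⟨F, i1, A, i2, i3, i4, σ, hσ⟩ := h
  haveI := hσ
  haveI : Fintype (G ⧸ N) := Subgroup.fintypeQuotientOfFiniteIndex
  rcases subsingleton_or_nontrivial A with hA | hA
  · refine ⟨F, i1, A, i2, i3, i4, 1, ?_⟩
    have h1 : Finite N := by
      have h2 : Function.Injective fun n : N => (⟨n, Subsingleton.elim _ _⟩ : σ.ker) := by
        intro a b hab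
        exact congrArg Subtype.val hab
      exact Finite.of_injective _ h2
    haveI : Finite G := by
      haveI : Finite (G ⧸ N) := inferInstance
      exact Finite.of_equiv _ (Subgroup.groupEquivQuotientProdSubgroup (s := N)).symm
    infer_instance
  · refine ⟨F, i1, Matrix (G ⧸ N) (G ⧸ N) A, inferInstance, inferInstance, inferInstance,
      indr σ, ?_⟩
    obtain ⟨t, ht⟩ : ∃ t : G, t = Quotient.out ((1 : G) : G ⧸ N) := ⟨_, rfl⟩
    have h1 : ∀ g : (indr σ).ker, ∃ h : t⁻¹ * ((g : G) * t) ∈ N, σ ⟨_, h⟩ = 1 := by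
      rintro ⟨g, hg⟩
      have h2 : indr σ g = 1 := hg
      have h3 := congrFun (congrFun h2 ((1 : G) : G ⧸ N)) ((1 : G) : G ⧸ N)
      rw [Matrix.one_apply_eq] at h3
      have h4 : ex0 N σ (t⁻¹ * (g * t)) = 1 := by rw [ht]; exact h3
      by_cases h5 : t⁻¹ * (g * t) ∈ N
      · refine ⟨h5, ?_⟩
        rw [← h4, ex0_mem σ h5]
      · rw [ex0_not σ h5] at h4
        exact absurd h4.symm one_ne_zero
    choose h2 h3 using h1
    have h4 : Function.Injective fun g : (indr σ).ker =>
        (⟨⟨_, h2 g⟩, h3 g⟩ : σ.ker) := by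
      intro a b hab
      have h5 : t⁻¹ * ((a : G) * t) = t⁻¹ * ((b : G) * t) :=
        congrArg (fun x : σ.ker => ((x : N) : G)) hab
      exact Subtype.ext (mul_right_cancel (mul_left_cancel h5))
    exact Finite.of_injective _ h4

end ind

end Vale.Agent.P092.H213.Irr
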