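import Vale.Agent.P092.H213.Irr.Sl
import Vale.Agent.P092.H213.Irr.Ctr
import Vale.Agent.P092.H213.Irr.Cls
import Vale.Agent.P092.H259.Fk.Prop

/-!
P092, project IRR (helper213): a lattice in a finite product of simple groups over local fields of
characteristic zero with a discrete projection to a factor is reducible.
-/

set_option linter.all false

open Filter Topology Module MeasureTheory

namespace Vale.Agent.P092.H213.Irr

open Vale.Agent.P092.H515 (IsLattice)

section split

variable {I : Type} [DecidableEq I] (G : I → Type) [∀ j, Group (G j)] (i : I)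

/-- one factor split off -/
def split : (∀ j, G j) ≃* (∀ j : {j // j ≠ i}, G j) × G i where
  toFun g := (fun j => g j, g i)
  invFun p j := if h : j = i then h ▸ p.2 else p.1 ⟨j, h⟩
  left_inv g := by
    funext j
    by_cases h : j = i
    · subst h
      simp
    · simp [h]
  right_inv p := by
    refine Prod.ext ?_ ?_
    · funext j
      simp [j.2]
    · simp
  map_mul' g h := rfl

variable [∀ j, TopologicalSpace (G j)]

theorem cont_split : Continuous (split G i) := by
  refine Continuous.prodMk ?_ (continuous_apply i)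
  exact continuous_pi fun j => continuous_apply (j : I)

theorem cont_split_symm : Continuous (split G i).symm := by
  refine continuous_pi fun j => ?_
  by_cases h : j = i
  · subst h
    have e : (fun p : (∀ l : {l // l ≠ j}, G l) × G j => (split G j).symm p j) = fun p => p.2 := by
      funext p
      exact dif_pos rfl
    rw [e]
    exact continuous_snd
  · have e : (fun p : (∀ l : {l // l ≠ i}, G l) × G i => (split G i).symm p j) =
        fun p => p.1 ⟨j, h⟩ := by
      funext p
      exact dif_neg h
    rw [e]
    exact (continuous_apply _).comp continuous_fst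

end split

/-- **A lattice with a discrete projection to a factor is reducible.** -/
theorem red_fin {Γ I : Type} [Group Γ] [Fintype I] {G : I → Type} [∀ j, Group (G j)]
    [∀ j, TopologicalSpace (G j)] (hG : ∀ j, UN.IsLieG (G j)) (q : Γ →* ∀ j, G j)
    (hq : IsLattice q.range) (i : I) (hd : DiscreteTopology (Set.range fun g => q g i)) :
    (UN.Red q i).FiniteIndex := by
  classical
  haveI : ∀ j, IsTopologicalGroup (G j) := fun j => (top_lieG (hG j)).1
  haveI : ∀ j, T2Space (G j) := fun j => (top_lieG (hG j)).2.1
  haveI : ∀ j, SecondCountableTopology (G j) := fun j => (top_lieG (hG j)).2.2.1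
  haveI : ∀ j, LocallyCompactSpace (G j) := fun j => (top_lieG (hG j)).2.2.2
  let p : Γ →* ∀ j : {j // j ≠ i}, G j := (MonoidHom.fst _ _).comp ((split G i).toMonoidHom.comp q)
  let r : Γ →* G i := (Pi.evalMonoidHom G i).comp q
  have h1 : q.range.map ((split G i : (∀ j, G j) ≃* _) : (∀ j, G j) →* _) = (p.prod r).range := by
    ext x
    constructor
    · rintro ⟨_, ⟨g, rfl⟩, rfl⟩
      exact ⟨g, rfl⟩
    · rintro ⟨g, rfl⟩
      exact ⟨_, ⟨g, rfl⟩, rfl⟩
  have h2 : IsLattice (p.prod r).range := by
    rw [← h1]
    exact IsLattice.map_equiv (split G i) (cont_split G i) (cont_split_symm G i) hq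
  have hd' : DiscreteTopology r.range := hd
  have h3 := fin_index p r h2 hd' fun hL =>
    exists_centr (fun j : {j // j ≠ i} => ctr_lieG (hG j)) _ hL.covol
  refine Subgroup.finiteIndex_of_le (H := p.ker ⊔ r.ker) (sup_le ?_ ?_)
  · intro g hg
    refine Subgroup.subset_closure (Or.inr fun j hj => ?_)
    exact congrFun (MonoidHom.mem_ker.1 hg) ⟨j, hj⟩
  · intro g hg
    exact Subgroup.subset_closure (Or.inl hg)

/-- **Irreducible lattices are of the class `ClassLatticeF`.** -/
theorem classF_of_irr {Γ : Type} [Group Γ] (h : UN.IrrLattice Γ) : UN.ClassLatticeF Γ := by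
  obtain ⟨hicc, I, i1, G, i2, i3, E, i4, i5, f, i, i6, hf, hr, hi, hl, hj⟩ := h
  haveI : ∀ j, IsTopologicalGroup (G j) := fun j => (top_lieG (hj j).1).1
  haveI : ∀ j, T2Space (G j) := fun j => (top_lieG (hj j).1).2.1
  haveI : ∀ j, LocallyCompactSpace (G j) := fun j => (top_lieG (hj j).1).2.2.2
  have h1 := (H259.Fk.lat_proper' hicc f hf hr i hi ⟨hl.disc, hl.covol⟩).2
  refine ⟨hicc, I, i1, G, i2, i3, E, i4, i5, f, i, i6, hf, hr, hi, hl, fun j => Or.inr
    ⟨(hj j).1, fun hd => (hj j).2 ?_⟩⟩
  exact red_fin (fun j => (hj j).1) (f.comp i) ⟨h1.disc, h1.covol⟩ j hd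

end Vale.Agent.P092.H213.Irr
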