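import Vale.Agent.P092.H213.Irr.Main
import Vale.Agent.P092.H213.Irr.Ctv

/-!
P092, project IRR (helper213): a lattice in a finite product of groups with a discrete projection to a
factor is reducible, if lattices contain finite subsets with finite centraliser.
-/

set_option linter.all false

open Filter Topology Module MeasureTheory

namespace Vale.Agent.P092.H213.Irr

open Vale.Agent.P092.H515 (IsLattice slice₁ mem_slice₁)

/-- **Lattices with one discrete projection are reducible**: second form. -/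
theorem fin_index' {G₁ G₂ : Type} [Group G₁] [TopologicalSpace G₁] [Group G₂] [TopologicalSpace G₂]
    [IsTopologicalGroup G₁] [LocallyCompactSpace G₁] [T2Space G₁] [IsTopologicalGroup G₂]
    [LocallyCompactSpace G₂] [T2Space G₂] [SecondCountableTopology G₁] [SecondCountableTopology G₂]
    {Γ : Type} [Group Γ] (p : Γ →* G₁) (q : Γ →* G₂)
    (hΓ : IsLattice (p.prod q).range) (hd : DiscreteTopology q.range)
    (hF : IsLattice (q.ker.map p) → ∃ F : Finset G₁, (∀ f ∈ F, f ∈ q.ker.map p) ∧
      {z : G₁ | ∀ f ∈ F, z * f = f * z}.Finite) : (p.ker ⊔ q.ker).FiniteIndex := by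
  have h1 : slice₁ (p.prod q).range ⊥ = q.ker.map p := by
    ext x
    rw [mem_slice₁]
    constructor
    · rintro ⟨_, ⟨g, rfl⟩, hg, rfl⟩
      exact ⟨g, Subgroup.mem_bot.1 hg, rfl⟩
    · rintro ⟨g, hg, rfl⟩
      exact ⟨_, ⟨g, rfl⟩, Subgroup.mem_bot.2 hg, rfl⟩
  have h2 : (p.prod q).range.map (MonoidHom.snd G₁ G₂) = q.range := by
    ext x
    constructor
    · rintro ⟨_, ⟨g, rfl⟩, rfl⟩
      exact ⟨g, rfl⟩
    · rintro ⟨g, rfl⟩
      exact ⟨_, ⟨g, rfl⟩, rfl⟩
  have hL : IsLattice (q.ker.map p) := by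
    rw [← h1]
    refine slice_bot hΓ ?_
    rw [h2]
    exact hd
  obtain ⟨F, hF1, hF2⟩ := hF hL
  have hP : DiscreteTopology p.range := by
    refine discrete_of_centrF hL.disc ?_ F hF1 hF2
    rintro _ ⟨g, rfl⟩ _ ⟨l, hl, rfl⟩
    refine ⟨g * l * g⁻¹, q.normal_ker.conj_mem l hl g, ?_⟩
    rw [map_mul, map_mul, map_inv]
  have h3 := relIndex_ne_zero hL (Subgroup.map_le_range p q.ker) hP
  rw [← Subgroup.index_comap, Subgroup.comap_map_eq] at h3
  rw [sup_comm]
  exact ⟨h3⟩

/-- **A lattice with a discrete projection to a factor is reducible.** -/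
theorem red_fin_of {Γ I : Type} [Group Γ] [Fintype I] {G : I → Type} [∀ j, Group (G j)]
    [∀ j, TopologicalSpace (G j)] [∀ j, IsTopologicalGroup (G j)] [∀ j, T2Space (G j)]
    [∀ j, SecondCountableTopology (G j)] [∀ j, LocallyCompactSpace (G j)]
    (hG : ∀ j, CtrF (G j)) (q : Γ →* ∀ j, G j) (hq : IsLattice q.range) (i : I)
    (hd : DiscreteTopology (Set.range fun g => q g i)) : (UN.Red q i).FiniteIndex := by
  classical
  let p : Γ →* ∀ j : {j // j ≠ i}, G j := (MonoidHom.fst _ _).comp ((split G i).toMonoidHom.comp q)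
  let r : Γ →* G i := (Pi.evalMonoidHom G i).comp q
  have h1 : q.range.map ((split G i : (∀ j, G j) ≃* _) : (∀ j, G j) →* _) = (p.prod r).range := by
    ext x
    constructor
    · rintro ⟨_, ⟨g, rfl⟩, rfl⟩
      exact ⟨g, rfl⟩
    · rintro ⟨g, rfl⟩
      exact ⟨_, ⟨g, rfl⟩, rfl⟩
  have h2 : IsLattice (p.prod r).range := by
    rw [← h1]
    exact IsLattice.map_equiv (split G i) (cont_split G i) (cont_split_symm G i) hq
  have hd' : DiscreteTopology r.range := hd
  have h3 := fin_index' p r h2 hd' fun hL =>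
    exists_centrF (fun j : {j // j ≠ i} => hG j) _ hL.covol
  refine Subgroup.finiteIndex_of_le (H := p.ker ⊔ r.ker) (sup_le ?_ ?_)
  · intro g hg
    refine Subgroup.subset_closure (Or.inr fun j hj => ?_)
    exact congrFun (MonoidHom.mem_ker.1 hg) ⟨j, hj⟩
  · intro g hg
    exact Subgroup.subset_closure (Or.inl hg)

end Vale.Agent.P092.H213.Irr
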