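import Vale.Agent.P092.H213.Irr.Fai
import Vale.Agent.P092.UN.ClsV
import Mathlib.Topology.MetricSpace.ProperSpace

/-!
P092, project IRR (helper213): the groups of the class `ClsV` are linear and satisfy the minimal
condition on centralisers.
-/

set_option linter.all false

open Matrix
open scoped commutatorElement

namespace Vale.Agent.P092.H213.Irr

/-- the hypothesis: central kernels are finite -/
def CenF : Prop := ∀ (N : Type) [Group N] [TopologicalSpace N], UN.Cls N → Finite (Subgroup.center N)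

theorem faiG_quo {F A E G : Type} [Field F] [Infinite F] [Ring A] [Algebra F A]
    [FiniteDimensional F A] [Group E] [TopologicalSpace E] {S : Subgroup E} [Group G]
    [TopologicalSpace G] (i : E →* A) (hi : Function.Injective i) (hG : UN.QuoS S G)
    (hf : Finite (Subgroup.center S)) : FaiG G := by
  obtain ⟨f, hq, hk⟩ := hG
  have hkf : Finite f.ker := by
    haveI := hf
    exact Finite.of_injective (Subgroup.inclusion hk) (Subgroup.inclusion_injective hk)
  obtain ⟨B, j1, j2, j3, σ, hσ⟩ := fai_quo (F := F) (i.comp S.subtype)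
    (hi.comp S.subtype_injective) f hq.surjective hk hkf
  exact ⟨F, inferInstance, B, j1, j2, j3, σ, hσ⟩

/-- the trivial quotient -/
theorem quoS_self {E : Type} [Group E] [TopologicalSpace E] (S : Subgroup E) : UN.QuoS S S :=
  ⟨MonoidHom.id S, Topology.IsQuotientMap.id, by
    intro x hx
    have h1 : x = 1 := hx
    rw [h1]
    exact Subgroup.one_mem _⟩

theorem faiG_cls (hc : CenF) {G : Type} [Group G] [TopologicalSpace G] (h : UN.Cls G) :
    FaiG G := by
  classical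
  obtain ⟨k, i0, hp, hk, h1⟩ := h
  haveI : Infinite k := NontriviallyNormedField.infinite k
  rcases h1 with h1 | ⟨D, j1, j2, hfc, h1⟩
  · obtain ⟨σ, ε, ι, k1, k2, J₀, q, S, a1, a2, a3, a4, a5, a6, a7, h2⟩ := h1
    have hi' : Function.Injective
        ((Units.coeHom _).comp (SpecialLinearGroup.toGL (n := (Fin q ⊕ Fin q) ⊕ ι) (R := k))) :=
      Units.val_injective.comp SpecialLinearGroup.toGL_injective
    rcases h2 with ⟨b1, h2⟩ | ⟨b1, b2, b3, b4, h2⟩
    · exact faiG_quo (F := k) _ hi' h2 (hc S ⟨k, i0, hp, hk, Or.inl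
        ⟨σ, ε, ι, k1, k2, J₀, q, S, a1, a2, a3, a4, a5, a6, a7, Or.inl ⟨b1, quoS_self S⟩⟩⟩)
    · exact faiG_quo (F := k) _ hi' h2
        (hc (⁅S, S⁆ : Subgroup (SpecialLinearGroup ((Fin q ⊕ Fin q) ⊕ ι) k)) ⟨k, i0, hp, hk, Or.inl
        ⟨σ, ε, ι, k1, k2, J₀, q, S, a1, a2, a3, a4, a5, a6, a7,
          Or.inr ⟨b1, b2, b3, b4, quoS_self ⁅S, S⁆⟩⟩⟩)
  · haveI := hfc.1
    rcases h1 with ⟨n, hn, h2⟩ | ⟨a1, a2, j3, a3, ε, ι, k1, k2, J₀, q, S, a4, a5, a6, a7, h2⟩
    · exact faiG_quo (F := k) (Units.coeHom (Matrix (Fin n) (Fin n) D)) Units.val_injective h2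
        (hc (commutator (Matrix (Fin n) (Fin n) D)ˣ) ⟨k, i0, hp, hk, Or.inr ⟨D, j1, j2, hfc, Or.inl
          ⟨n, hn, quoS_self (commutator (Matrix (Fin n) (Fin n) D)ˣ)⟩⟩⟩)
    · exact faiG_quo (F := k)
        (Units.coeHom (Matrix ((Fin q ⊕ Fin q) ⊕ ι) ((Fin q ⊕ Fin q) ⊕ ι) D))
        Units.val_injective h2
        (hc (⁅S, S⁆ : Subgroup (Matrix ((Fin q ⊕ Fin q) ⊕ ι) ((Fin q ⊕ Fin q) ⊕ ι) D)ˣ) ⟨k, i0, hp, hk, Or.inr ⟨D, j1, j2, hfc, Or.inr
          ⟨a1, a2, j3, a3, ε, ι, k1, k2, J₀, q, S, a4, a5, a6, a7, quoS_self ⁅S, S⁆⟩⟩⟩)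

theorem faiG_clsV (hc : CenF) {G : Type} [Group G] [TopologicalSpace G] (h : UN.ClsV G) :
    FaiG G := by
  obtain ⟨ht, N, hn, hi, ho, hcl⟩ := h
  haveI := hi
  exact FaiG.of_fi (faiG_cls hc hcl)

/-- **The minimal condition on centralisers for the class `ClsV`.** -/
theorem minC_clsV_of (hc : CenF) {G : Type} [Group G] [TopologicalSpace G] (h : UN.ClsV G) :
    H35.Mx.MinC G := (faiG_clsV hc h).minC

end Vale.Agent.P092.H213.Irr
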