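import Vale.Agent.P092.H515.LatSl

/-!
P092, project IRR (helper213): lattices in products of two groups with a discrete projection.
-/

set_option linter.all false

open MeasureTheory MeasureTheory.Measure Set Filter Topology
open scoped ENNReal NNReal Pointwise

namespace Vale.Agent.P092.H213.Irr

open Vale.Agent.P092.H515

section sep

variable {E : Type} [Group E] [TopologicalSpace E] [IsTopologicalGroup E]

/-- separating neighbourhoods of discrete subgroups -/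
theorem exists_sep (Δ : Subgroup E) [hd : DiscreteTopology Δ] :
    ∃ V : Set E, IsOpen V ∧ (1 : E) ∈ V ∧ ∀ x ∈ V, ∀ y ∈ V, x⁻¹ * y ∈ Δ → x⁻¹ * y = 1 := by
  obtain ⟨U, hU, hU1⟩ : ∃ U : Set E, IsOpen U ∧ (Subtype.val : Δ → E) ⁻¹' U = {1} :=
    isOpen_induced_iff.1 (isOpen_discrete ({1} : Set Δ))
  have h1U : (1 : E) ∈ U := by
    have : (1 : Δ) ∈ (Subtype.val : Δ → E) ⁻¹' U := by rw [hU1]; rfl
    exact this
  have hc : Continuous fun p : E × E => p.1⁻¹ * p.2 := by fun_prop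
  have h2 : (fun p : E × E => p.1⁻¹ * p.2) ⁻¹' U ∈ 𝓝 ((1 : E), (1 : E)) := by
    refine (hU.preimage hc).mem_nhds ?_
    show (1 : E)⁻¹ * 1 ∈ U
    simpa using h1U
  rw [nhds_prod_eq, mem_prod_self_iff] at h2
  obtain ⟨V, hV, hVU⟩ := h2
  obtain ⟨W, hWV, hW, hW1⟩ := mem_nhds_iff.1 hV
  refine ⟨W, hW, hW1, fun x hx y hy hxy => ?_⟩
  have h3 : x⁻¹ * y ∈ U := hVU (mk_mem_prod (hWV hx) (hWV hy))
  have h4 : (⟨x⁻¹ * y, hxy⟩ : Δ) ∈ (Subtype.val : Δ → E) ⁻¹' U := h3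
  rw [hU1] at h4
  exact congrArg Subtype.val h4

/-- A group which normalises a discrete group with a finite subset of trivial centraliser is
discrete. -/
theorem discrete_of_centr {Λ P : Subgroup E} (hd : DiscreteTopology Λ)
    (hn : ∀ p ∈ P, ∀ l ∈ Λ, p * l * p⁻¹ ∈ Λ) (F : Finset E) (hF : ∀ f ∈ F, f ∈ Λ)
    (hc : ∀ z : E, (∀ f ∈ F, z * f = f * z) → z = 1) : DiscreteTopology P := by
  have h1 : ∀ f : F, ∃ U : Set E, IsOpen U ∧ (f : E) ∈ U ∧ ∀ x ∈ U, x ∈ Λ → x = f := by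
    intro f
    obtain ⟨U, hU, hU1⟩ : ∃ U : Set E, IsOpen U ∧
        (Subtype.val : Λ → E) ⁻¹' U = {⟨(f : E), hF f f.2⟩} :=
      isOpen_induced_iff.1 (isOpen_discrete ({⟨(f : E), hF f f.2⟩} : Set Λ))
    refine ⟨U, hU, ?_, fun x hx hxΛ => ?_⟩
    · have : (⟨(f : E), hF f f.2⟩ : Λ) ∈ (Subtype.val : Λ → E) ⁻¹' U := by rw [hU1]; rfl
      exact this
    · have h4 : (⟨x, hxΛ⟩ : Λ) ∈ (Subtype.val : Λ → E) ⁻¹' U := hx
      rw [hU1] at h4
      exact congrArg Subtype.val h4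
  choose U hU hfU hUΛ using h1
  have h2 : IsOpen (⋂ f : F, (fun x : E => x * (f : E) * x⁻¹) ⁻¹' U f) :=
    isOpen_iInter_of_finite fun f => (hU f).preimage (by fun_prop)
  refine discreteTopology_of_isOpen_singleton_one ?_
  have h3 : ({1} : Set P) = (Subtype.val : P → E) ⁻¹'
      (⋂ f : F, (fun x : E => x * (f : E) * x⁻¹) ⁻¹' U f) := by
    ext x
    constructor
    · rintro rfl
      refine mem_iInter.2 fun f => ?_
      show ((1 : P) : E) * (f : E) * ((1 : P) : E)⁻¹ ∈ U f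
      simpa using hfU f
    · intro hx
      have hx' := mem_iInter.1 hx
      apply Subtype.ext
      refine hc x fun f hf => ?_
      have h5 : (x : E) * f * (x : E)⁻¹ = f := hUΛ ⟨f, hf⟩ _ (hx' ⟨f, hf⟩) (hn x x.2 f (hF f hf))
      exact mul_inv_eq_iff_eq_mul.1 h5
  rw [h3]
  exact h2.preimage continuous_subtype_val

end sep

section bl

variable {E : Type} [Group E] [TopologicalSpace E] [IsTopologicalGroup E]
  [LocallyCompactSpace E] [SecondCountableTopology E] [T2Space E]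

/-- A discrete group which contains a lattice contains it as a subgroup of finite index. -/
theorem relIndex_ne_zero {Λ Δ : Subgroup E} (hΛ : IsLattice Λ) (hle : Λ ≤ Δ)
    (hd : DiscreteTopology Δ) : Λ.relIndex Δ ≠ 0 := by
  classical
  borelize E
  have hdΛ := hΛ.disc
  let _ : MeasurableSpace (E ⧸ Λ) := borel _
  have _ : BorelSpace (E ⧸ Λ) := ⟨rfl⟩
  obtain ⟨ν, hP, hν⟩ := hΛ.exists_prob
  obtain ⟨μ, hμ⟩ : ∃ μ : Measure E, μ = haar := ⟨_, rfl⟩
  have hH : IsHaarMeasure μ := by rw [hμ]; infer_instance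
  have hr : IsMulRightInvariant μ := right_invariant Λ ν hν μ
  obtain ⟨V, hV, hV1, hVs⟩ := exists_sep Δ
  have hVpos : μ V ≠ 0 := (hV.measure_pos μ ⟨1, hV1⟩).ne'
  have hfin : μ (fdom Λ) < ∞ := fdom_lt_top Λ ν hν μ
  intro h0
  have hinf : Infinite (Δ ⧸ Λ.subgroupOf Δ) := by
    rw [← not_finite_iff_infinite]
    intro hf
    exact Subgroup.index_ne_zero_of_finite (H := Λ.subgroupOf Δ) h0
  have key : ∀ s : Finset (Δ ⧸ Λ.subgroupOf Δ), (s.card : ℝ≥0∞) * μ V ≤ μ (fdom Λ) := by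
    intro s
    let δ : Δ ⧸ Λ.subgroupOf Δ → Δ := Quotient.out
    have hδ : ∀ c, (QuotientGroup.mk (δ c) : Δ ⧸ Λ.subgroupOf Δ) = c := fun c => Quotient.out_eq c
    let P : Δ ⧸ Λ.subgroupOf Δ → Set E := fun c => (fun x => x * ((δ c : Δ) : E)⁻¹) ⁻¹' V
    have hPm : ∀ c, MeasurableSet (P c) := fun c =>
      (measurable_mul_const _) hV.measurableSet
    have hPμ : ∀ c, μ (P c) = μ V := fun c => measure_preimage_mul_right μ _ V
    have hdisj : Set.PairwiseDisjoint (s : Set (Δ ⧸ Λ.subgroupOf Δ)) P := by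
      intro c _ c' _ hcc
      rw [Function.onFun, Set.disjoint_left]
      intro x hx hx'
      apply hcc
      have h1 : (x * ((δ c : Δ) : E)⁻¹)⁻¹ * (x * ((δ c' : Δ) : E)⁻¹) =
          ((δ c * (δ c')⁻¹ : Δ) : E) := by
        push_cast
        group
      have h2 := hVs _ hx _ hx' (by rw [h1]; exact SetLike.coe_mem _)
      rw [h1] at h2
      have h3 : δ c * (δ c')⁻¹ = 1 := Subtype.ext h2
      have h4 : δ c = δ c' := mul_inv_eq_one.1 h3
      rw [← hδ c, ← hδ c', h4]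
    have h1 : μ (⋃ c ∈ s, P c) = s.card * μ V := by
      rw [measure_biUnion_finset hdisj fun c _ => hPm c, Finset.sum_congr rfl fun c _ => hPμ c,
        Finset.sum_const, nsmul_eq_mul]
    have h2 := le_fdom_of_unique Λ ν hν μ (F := ⋃ c ∈ s, P c) (N := 1)
      (Finset.measurableSet_biUnion s fun c _ => hPm c) ?_
    · rw [h1] at h2
      simpa using h2
    · intro x
      by_cases hx : ∃ v0 : Λ, x * v0 ∈ ⋃ c ∈ s, P c
      · obtain ⟨v0, hv0⟩ := hx
        refine ⟨{v0}, by simp, fun v hv => ?_⟩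
        rw [Finset.mem_singleton]
        simp only [mem_iUnion] at hv0 hv
        obtain ⟨c, _, hc⟩ := hv0
        obtain ⟨c', _, hc'⟩ := hv
        have h1 : (x * v0 * ((δ c : Δ) : E)⁻¹)⁻¹ * (x * v * ((δ c' : Δ) : E)⁻¹) =
            ((δ c : Δ) : E) * ((v0 : E)⁻¹ * v) * ((δ c' : Δ) : E)⁻¹ := by
          group
        have hm : (v0 : E)⁻¹ * v ∈ Λ := Λ.mul_mem (Λ.inv_mem v0.2) v.2
        have h3 := hVs _ hc _ hc' (by
          rw [h1]
          exact Δ.mul_mem (Δ.mul_mem (δ c).2 (hle hm)) (Δ.inv_mem (δ c').2))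
        rw [h1, mul_inv_eq_one] at h3
        have h4 : c = c' := by
          rw [← hδ c, ← hδ c', QuotientGroup.eq, Subgroup.mem_subgroupOf]
          have h5 : (((δ c)⁻¹ * δ c' : Δ) : E) = (v0 : E)⁻¹ * v := by
            push_cast
            rw [← h3]
            group
          rw [h5]
          exact hm
        rw [← h4] at h3
        have h6 : (v0 : E)⁻¹ * v = 1 := by
          have := mul_eq_left.1 h3
          exact this
        exact Subtype.ext (inv_mul_eq_one.1 h6).symm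
      · push Not at hx
        exact ⟨∅, by simp, fun v hv => absurd hv (hx v)⟩
  obtain ⟨N, hN⟩ := ENNReal.exists_nat_mul_gt hVpos hfin.ne
  obtain ⟨s, hs⟩ := Infinite.exists_subset_card_eq (Δ ⧸ Λ.subgroupOf Δ) N
  have := key s
  rw [hs] at this
  exact absurd this (not_le.2 hN)

end bl

section sl

variable {G₁ G₂ : Type} [Group G₁] [TopologicalSpace G₁] [Group G₂] [TopologicalSpace G₂]
  [IsTopologicalGroup G₁] [LocallyCompactSpace G₁] [T2Space G₁] [IsTopologicalGroup G₂]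
  [LocallyCompactSpace G₂] [T2Space G₂] [SecondCountableTopology G₁] [SecondCountableTopology G₂]

/-- `Γ` a lattice in `G₁ × G₂` with discrete projection to `G₂`: `Γ ∩ G₁` is a lattice in `G₁`. -/
theorem slice_bot {Γ : Subgroup (G₁ × G₂)} (hΓ : IsLattice Γ)
    (hd₂ : DiscreteTopology (Γ.map (MonoidHom.snd G₁ G₂))) : IsLattice (slice₁ Γ ⊥) := by
  classical
  borelize G₁
  borelize G₂
  have hd := hΓ.disc
  have hdS := slice₁_discrete Γ (⊥ : Subgroup G₂) (by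
    rw [Subgroup.coe_bot]; exact isCompact_singleton)
  let _ : MeasurableSpace ((G₁ × G₂) ⧸ Γ) := borel _
  have _ : BorelSpace ((G₁ × G₂) ⧸ Γ) := ⟨rfl⟩
  let _ : MeasurableSpace (G₁ ⧸ slice₁ Γ ⊥) := borel _
  have _ : BorelSpace (G₁ ⧸ slice₁ Γ ⊥) := ⟨rfl⟩
  obtain ⟨ν, hP, hν⟩ := hΓ.exists_prob
  obtain ⟨μ₁, hμ₁⟩ : ∃ μ : Measure G₁, μ = haar := ⟨_, rfl⟩
  have hH₁ : IsHaarMeasure μ₁ := by rw [hμ₁]; infer_instance
  obtain ⟨μ₂, hμ₂⟩ : ∃ μ : Measure G₂, μ = haar := ⟨_, rfl⟩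
  have hH₂ : IsHaarMeasure μ₂ := by rw [hμ₂]; infer_instance
  have hr : IsMulRightInvariant (μ₁.prod μ₂) := right_invariant Γ ν hν (μ₁.prod μ₂)
  have hr₁ : IsMulRightInvariant μ₁ := rightInv_fst μ₁ μ₂
  obtain ⟨V, hV, hV1, hVs⟩ := exists_sep (Γ.map (MonoidHom.snd G₁ G₂))
  refine isLattice_of_fdom (slice₁ Γ ⊥) μ₁ ?_
  have h1 := le_fdom_of_unique Γ ν hν (μ₁.prod μ₂) (F := fdom (slice₁ Γ ⊥) ×ˢ V)
    (N := 1) ((fdom_meas _).prod hV.measurableSet) ?_
  · rw [Measure.prod_prod] at h1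
    have h2 : μ₁ (fdom (slice₁ Γ ⊥)) * μ₂ V < ∞ :=
      h1.trans_lt (ENNReal.mul_lt_top (ENNReal.natCast_lt_top _)
        (fdom_lt_top Γ ν hν (μ₁.prod μ₂)))
    have h3 : μ₂ V ≠ 0 := (hV.measure_pos μ₂ ⟨1, hV1⟩).ne'
    exact ENNReal.lt_top_of_mul_ne_top_left h2.ne h3
  · intro x
    by_cases hx : ∃ v0 : Γ, x * v0 ∈ fdom (slice₁ Γ ⊥) ×ˢ V
    · obtain ⟨v0, hv0⟩ := hx
      refine ⟨{v0}, by simp, fun v hv => ?_⟩
      rw [Finset.mem_singleton]
      have e2 : ((v0⁻¹ * v : Γ) : G₁ × G₂).2 = (x * v0).2⁻¹ * (x * v).2 := by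
        simp only [Subgroup.coe_mul, Subgroup.coe_inv, Prod.snd_mul, Prod.snd_inv]
        group
      have hK : ((v0⁻¹ * v : Γ) : G₁ × G₂).2 = 1 := by
        rw [e2]
        refine hVs _ hv0.2 _ hv.2 ?_
        rw [← e2]
        exact ⟨_, (v0⁻¹ * v : Γ).2, rfl⟩
      have hmem : ((v0⁻¹ * v : Γ) : G₁ × G₂).1 ∈ slice₁ Γ ⊥ :=
        mem_slice₁.2 ⟨_, (v0⁻¹ * v : Γ).2, Subgroup.mem_bot.2 hK, rfl⟩
      obtain ⟨u, hu1, hu2⟩ := existsUnique_right (slice₁ Γ ⊥) (x * v0).1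
      have e1 := hu2 1 (by simpa using hv0.1)
      have e3 := hu2 ⟨_, hmem⟩ (by
        have e : (x * v0).1 * ((v0⁻¹ * v : Γ) : G₁ × G₂).1 = (x * v).1 := by
          simp only [Subgroup.coe_mul, Subgroup.coe_inv, Prod.fst_mul, Prod.fst_inv]
          group
        show (x * v0).1 * ((v0⁻¹ * v : Γ) : G₁ × G₂).1 ∈ fdom (slice₁ Γ ⊥)
        rw [e]; exact hv.1)
      have e4 : ((v0⁻¹ * v : Γ) : G₁ × G₂).1 = 1 := by
        have := congrArg (fun u : slice₁ Γ ⊥ => (u : G₁)) (e3.trans e1.symm)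
        exact this
      have e5 : v0⁻¹ * v = 1 := Subtype.ext (Prod.ext e4 hK)
      exact (inv_mul_eq_one.1 e5).symm
    · push Not at hx
      exact ⟨∅, by simp, fun v hv => absurd hv (hx v)⟩

/-- **Lattices with one discrete projection are reducible**, if the kernel of this projection has a
finite subset with trivial centraliser. -/
theorem fin_index {Γ : Type} [Group Γ] (p : Γ →* G₁) (q : Γ →* G₂)
    (hΓ : IsLattice (p.prod q).range) (hd : DiscreteTopology q.range)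
    (hF : IsLattice (q.ker.map p) → ∃ F : Finset G₁, (∀ f ∈ F, f ∈ q.ker.map p) ∧
      ∀ z : G₁, (∀ f ∈ F, z * f = f * z) → z = 1) : (p.ker ⊔ q.ker).FiniteIndex := by
  have h1 : slice₁ (p.prod q).range ⊥ = q.ker.map p := by
    ext x
    rw [mem_slice₁]
    constructor
    · rintro ⟨_, ⟨g, rfl⟩, hg, rfl⟩
      exact ⟨g, Subgroup.mem_bot.1 hg, rfl⟩
    · rintro ⟨g, hg, rfl⟩
      exact ⟨_, ⟨g, rfl⟩, Subgroup.mem_bot.2 hg, rfl⟩
  have h2 : (p.prod q).range.map (MonoidHom.snd G₁ G₂) = q.range := by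
    ext x
    constructor
    · rintro ⟨_, ⟨g, rfl⟩, rfl⟩
      exact ⟨g, rfl⟩
    · rintro ⟨g, rfl⟩
      exact ⟨_, ⟨g, rfl⟩, rfl⟩
  have hL : IsLattice (q.ker.map p) := by
    rw [← h1]
    refine slice_bot hΓ ?_
    rw [h2]
    exact hd
  obtain ⟨F, hF1, hF2⟩ := hF hL
  have hP : DiscreteTopology p.range := by
    refine discrete_of_centr hL.disc ?_ F hF1 hF2
    rintro _ ⟨g, rfl⟩ _ ⟨l, hl, rfl⟩
    refine ⟨g * l * g⁻¹, q.normal_ker.conj_mem l hl g, ?_⟩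
    rw [map_mul, map_mul, map_inv]
  have h3 := relIndex_ne_zero hL (Subgroup.map_le_range p q.ker) hP
  rw [← Subgroup.index_comap, Subgroup.comap_map_eq] at h3
  rw [sup_comm]
  exact ⟨h3⟩

end sl

end Vale.Agent.P092.H213.Irr
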